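import Vale.Agent.P365.Z0.H945.Pair
import Vale.Agent.P365.Z0.S351.I5

/-!
# P365 zero-dimensional spectrum, static step (Z3c): the kick sums of `NearZ` (`S351.JLZ`)
-/

set_option linter.all false

namespace P365Z0.H945

open Matrix Complex MeasureTheory P365Z0 P365Z0.H990 P365L P365L.Stat P365T1 P365L.Z622
open scoped ComplexConjugate ENNReal

section gen

variable {ι : Type*} [Fintype ι] [DecidableEq ι] {A : Matrix ι ι ℝ} {E : ℝ} {e : ι → ℝ}
  {ν : ι → Measure ℝ} {a : ι → ℝ} {T : Finset ι} {d : ι → ι → ℝ} {r r' L L' : ℝ}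

theorem swap_pairs (hds : ∀ x y, d x y = d y x) (g : ι → ι → ℝ≥0∞) :
    ∑ x ∈ T, ∑ z ∈ (Bl d x r' ∩ T).erase x, g z x =
      ∑ z ∈ T, ∑ x ∈ (Bl d z r' ∩ T).erase z, g z x := by
  refine Finset.sum_comm' fun x z => ?_
  simp only [Finset.mem_erase, Finset.mem_inter, mem_Bl]
  rw [hds z x]
  constructor
  · rintro ⟨h1, h2, h3, h4⟩
    exact ⟨⟨fun h => h2 h.symm, h3, h1⟩, h4⟩
  · rintro ⟨⟨h1, h2, h3⟩, h4⟩
    exact ⟨h3, fun h => h1 h.symm, h2, h4⟩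

/-- pairs, centres first -/
theorem pairX [∀ x, IsProbabilityMeasure (ν x)] (hA : A.IsSymm) (he : ∀ x, 0 < e x)
    {D c0 a' δ0 X d0 : ℝ} (hD0 : 0 ≤ D)
    (hc0 : 0 < c0) (hδ : 0 < δ0) (hd0 : 0 < d0) (hX : 0 ≤ X)
    (hD : ∀ y ∈ T, DensLe D (ν y)) (hν : ∀ y ∈ T, DensGe c0 (a' + δ0) (ν y))
    (hds : ∀ x y, d x y = d y x) (hdt : ∀ x y z, d x z ≤ d x y + d y z) (hL : 0 ≤ L) :
    ∑ x ∈ T, ∑ z ∈ (Bl d x r' ∩ T).erase x, ENNReal.ofReal (e z * e x) *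
      ∫⁻ v, on (GS A E e a' X d0 x ∩ GS A E e a' X d0 z ∩ SS A E e (Bl d x (2 * r') ∩ T) L)
        (tf A E e a z x) v ∂(Measure.pi ν) ≤
      ENNReal.ofReal (CT D c0 δ0 X d0 L) *
        LoE ν A E e a a' (Xn δ0 X d0) (dn δ0 X d0) T := by
  refine le_trans ?_ (pairT (ν := ν) (E := E) (a := a) hA he hD0 hc0 hδ hd0 hX hD hν
    (Bz := fun z => Bl d z r' ∩ T) (fun z => Finset.inter_subset_right) hL)
  have h1 : ∀ x ∈ T, ∀ z ∈ (Bl d x r' ∩ T).erase x, ENNReal.ofReal (e z * e x) *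
      ∫⁻ v, on (GS A E e a' X d0 x ∩ GS A E e a' X d0 z ∩ SS A E e (Bl d x (2 * r') ∩ T) L)
        (tf A E e a z x) v ∂(Measure.pi ν) ≤
      ENNReal.ofReal (e z) * (ENNReal.ofReal (e x) *
      ∫⁻ v, on (GS A E e a' X d0 x ∩ GS A E e a' X d0 z ∩ SS A E e (Bl d z r' ∩ T) L)
        (tf A E e a z x) v ∂(Measure.pi ν)) := by
    intro x _ z hz
    rw [ENNReal.ofReal_mul (he z).le, mul_assoc]
    refine mul_le_mul_right (mul_le_mul_right (lintegral_mono fun v => ?_) _) _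
    refine on_mono (Set.inter_subset_inter_right _ (SS_mono hA he ?_ le_rfl))
      (fun _ _ => le_rfl) v
    intro y hy
    rw [Finset.mem_erase, Finset.mem_inter, mem_Bl] at hz
    rw [Finset.mem_inter, mem_Bl] at hy ⊢
    refine ⟨?_, hy.2⟩
    have := hdt y z x
    linarith [hz.2.1]
  refine (Finset.sum_le_sum fun x hx => Finset.sum_le_sum (h1 x hx)).trans ?_
  rw [swap_pairs hds (fun z x => ENNReal.ofReal (e z) * (ENNReal.ofReal (e x) *
      ∫⁻ v, on (GS A E e a' X d0 x ∩ GS A E e a' X d0 z ∩ SS A E e (Bl d z r' ∩ T) L)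
        (tf A E e a z x) v ∂(Measure.pi ν)))]
  refine le_of_eq (Finset.sum_congr rfl fun z _ => ?_)
  rw [Finset.mul_sum]

/-- constant of `JL` -/
noncomputable def CJL (D c0 δ0 X d0 L : ℝ) : ℝ :=
  CT D c0 δ0 X d0 L + c2 (X + 1) (hq δ0 d0) / kq c0 δ0 X d0 * (Real.pi * D) * (L + 1) *
    CT D c0 δ0 (Xn δ0 X d0) (dn δ0 X d0) (L + 1)

/-- bound of the sum of the two- and three-point terms -/
theorem JL_sum [∀ x, IsProbabilityMeasure (ν x)] (hA : A.IsSymm) (he : ∀ x, 0 < e x)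
    {D c0 a' δ0 X d0 : ℝ} (hD0 : 0 ≤ D)
    (hc0 : 0 < c0) (hδ : 0 < δ0) (hd0 : 0 < d0) (hX : 0 ≤ X)
    (hD : ∀ y ∈ T, DensLe D (ν y)) (hν : ∀ y ∈ T, DensGe c0 (a' + δ0) (ν y))
    (hds : ∀ x y, d x y = d y x) (hdt : ∀ x y z, d x z ≤ d x y + d y z)
    (hd00 : ∀ x, d x x = 0) (hr : 0 ≤ r) (hrr : r ≤ r') (hL : 0 ≤ L) :
    ∑ x ∈ T, ∑ z ∈ (Bl d x r' ∩ T).erase x, ENNReal.ofReal (e z * e x) *
      (∫⁻ v, on (GS A E e a' X d0 x ∩ GS A E e a' X d0 z ∩ SS A E e (Bl d x (2 * r') ∩ T) L)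
        (tf A E e a z x) v ∂(Measure.pi ν) +
      ∑ y ∈ (Bl d x r ∩ T).filter (fun y => y ≠ z ∧ y ≠ x), ENNReal.ofReal (e y) *
        ∫⁻ v, on (GS A E e a' X d0 y ∩ GS A E e a' X d0 z ∩ GS A E e a' X d0 x ∩
          SS A E e (Bl d x (2 * r') ∩ T) L) (kf A E e a y z x) v ∂(Measure.pi ν)) ≤
      ENNReal.ofReal (CJL D c0 δ0 X d0 L) *
        LoE ν A E e a a' (Xn δ0 (Xn δ0 X d0) (dn δ0 X d0))
          (dn δ0 (Xn δ0 X d0) (dn δ0 X d0)) T := by
  have hX1 : 0 ≤ Xn δ0 X d0 := (Xn_pos hX hδ hd0).le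
  have hd1 : 0 < dn δ0 X d0 := dn_pos hX hδ hd0
  have hk := kq_pos (X := X) hc0 hδ hd0
  have hpi := Real.pi_pos
  have hc2 : 0 ≤ c2 (X + 1) (hq δ0 d0) := by unfold c2; positivity
  have hCT := CT_nonneg (X := X) hD0 hc0 hδ hd0 hL
  have hCT1 := CT_nonneg (X := Xn δ0 X d0) hD0 hc0 hδ hd1 (show 0 ≤ L + 1 by linarith)
  set K : ℝ := c2 (X + 1) (hq δ0 d0) / kq c0 δ0 X d0 with hK
  have hK0 : 0 ≤ K := div_nonneg hc2 hk.le
  have p1 := pairX (ν := ν) (E := E) (a := a) (T := T) (r' := r') hA he hD0 hc0 hδ hd0 hX hD hν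
    hds hdt hL
  have p2 := pairX (ν := ν) (E := E) (a := a) (T := T) (r' := r') (L := L + 1) hA he hD0 hc0 hδ
    hd1 hX1 hD hν hds hdt (by linarith)
  have hmono := LoE_mono (ν := ν) (E := E) (a := a) (a' := a') (X := Xn δ0 X d0)
    (d := dn δ0 X d0) hA he
    (show Xn δ0 X d0 ≤ Xn δ0 (Xn δ0 X d0) (dn δ0 X d0) by
      have := Xn_ge hX1 hδ hd1; linarith) (dn_le hX1 hδ hd1) T
  set Lo2 := LoE ν A E e a a' (Xn δ0 (Xn δ0 X d0) (dn δ0 X d0))
          (dn δ0 (Xn δ0 X d0) (dn δ0 X d0)) T with hLo2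
  -- three-point terms
  have h3 : ∀ x ∈ T, ∀ z ∈ (Bl d x r' ∩ T).erase x,
      ∑ y ∈ (Bl d x r ∩ T).filter (fun y => y ≠ z ∧ y ≠ x), ENNReal.ofReal (e y) *
        ∫⁻ v, on (GS A E e a' X d0 y ∩ GS A E e a' X d0 z ∩ GS A E e a' X d0 x ∩
          SS A E e (Bl d x (2 * r') ∩ T) L) (kf A E e a y z x) v ∂(Measure.pi ν) ≤
      ENNReal.ofReal (K * (Real.pi * D) * (L + 1)) *
        ∫⁻ v, on (GS A E e a' (Xn δ0 X d0) (dn δ0 X d0) x ∩
            GS A E e a' (Xn δ0 X d0) (dn δ0 X d0) z ∩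
            SS A E e (Bl d x (2 * r') ∩ T) (L + 1))
            (tf A E e a z x) v ∂(Measure.pi ν) := by
    intro x _ z _
    have hsub : (Bl d x r ∩ T).filter (fun y => y ≠ z ∧ y ≠ x) ⊆ Bl d x (2 * r') ∩ T :=
      (Finset.filter_subset _ _).trans (Finset.inter_subset_inter_right (Bl_mono (by linarith)))
    have hT : ∀ y ∈ (Bl d x r ∩ T).filter (fun y => y ≠ z ∧ y ≠ x), y ∈ T := fun y hy =>
      Finset.mem_of_mem_inter_right (Finset.mem_of_mem_filter y hy)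
    refine (ST2_sum (ν := ν) (E := E) (a := a) (z := z) (w := x) hA he hD0 hc0 hδ hd0 hX hsub
      (fun y hy => (Finset.mem_filter.1 hy).2) (fun y hy => hD y (hT y hy))
      (fun y hy => hν y (hT y hy)) L).trans (le_of_eq ?_)
    have e1 : ENNReal.ofReal (K * (Real.pi * D) * (L + 1)) = ENNReal.ofReal K *
        (ENNReal.ofReal (Real.pi * D) * ENNReal.ofReal (L + 1)) := by
      rw [mul_assoc, ENNReal.ofReal_mul hK0, ENNReal.ofReal_mul (by positivity)]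
    rw [e1, ← hK]
    ring
  have hstep : ∑ x ∈ T, ∑ z ∈ (Bl d x r' ∩ T).erase x, ENNReal.ofReal (e z * e x) *
      (∫⁻ v, on (GS A E e a' X d0 x ∩ GS A E e a' X d0 z ∩ SS A E e (Bl d x (2 * r') ∩ T) L)
        (tf A E e a z x) v ∂(Measure.pi ν) +
      ∑ y ∈ (Bl d x r ∩ T).filter (fun y => y ≠ z ∧ y ≠ x), ENNReal.ofReal (e y) *
        ∫⁻ v, on (GS A E e a' X d0 y ∩ GS A E e a' X d0 z ∩ GS A E e a' X d0 x ∩
          SS A E e (Bl d x (2 * r') ∩ T) L) (kf A E e a y z x) v ∂(Measure.pi ν)) ≤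
      ∑ x ∈ T, ∑ z ∈ (Bl d x r' ∩ T).erase x, ENNReal.ofReal (e z * e x) *
      ∫⁻ v, on (GS A E e a' X d0 x ∩ GS A E e a' X d0 z ∩ SS A E e (Bl d x (2 * r') ∩ T) L)
        (tf A E e a z x) v ∂(Measure.pi ν) +
      ENNReal.ofReal (K * (Real.pi * D) * (L + 1)) *
      ∑ x ∈ T, ∑ z ∈ (Bl d x r' ∩ T).erase x, ENNReal.ofReal (e z * e x) *
        ∫⁻ v, on (GS A E e a' (Xn δ0 X d0) (dn δ0 X d0) x ∩
            GS A E e a' (Xn δ0 X d0) (dn δ0 X d0) z ∩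
            SS A E e (Bl d x (2 * r') ∩ T) (L + 1))
            (tf A E e a z x) v ∂(Measure.pi ν) := by
    rw [Finset.mul_sum, ← Finset.sum_add_distrib]
    refine Finset.sum_le_sum fun x hx => ?_
    rw [Finset.mul_sum, ← Finset.sum_add_distrib]
    refine Finset.sum_le_sum fun z hz => ?_
    rw [mul_add]
    refine add_le_add le_rfl ?_
    refine (mul_le_mul_right (h3 x hx z hz) _).trans (le_of_eq ?_)
    ring
  refine hstep.trans ?_
  calc _ ≤ ENNReal.ofReal (CT D c0 δ0 X d0 L) * Lo2 +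
        ENNReal.ofReal (K * (Real.pi * D) * (L + 1)) *
          (ENNReal.ofReal (CT D c0 δ0 (Xn δ0 X d0) (dn δ0 X d0) (L + 1)) * Lo2) :=
        add_le_add (p1.trans (mul_le_mul_right hmono _)) (mul_le_mul_right p2 _)
    _ = ENNReal.ofReal (CJL D c0 δ0 X d0 L) * Lo2 := by
        have e2 : ENNReal.ofReal (CJL D c0 δ0 X d0 L) = ENNReal.ofReal (CT D c0 δ0 X d0 L) +
            ENNReal.ofReal (K * (Real.pi * D) * (L + 1)) *
              ENNReal.ofReal (CT D c0 δ0 (Xn δ0 X d0) (dn δ0 X d0) (L + 1)) := by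
          rw [CJL, ← hK, ENNReal.ofReal_add hCT (by positivity), ENNReal.ofReal_mul (by positivity)]
        rw [e2]
        ring

end gen

/-! ### the trap world -/

section tw

open P365Z0.S351

variable {ι : Type} [Fintype ι] [DecidableEq ι] {w : TW ι} {φ : ι → ℝ} {d : ι → ι → ℝ}
  {X d0 a' r r' L L' : ℝ}

theorem mem_Gd {v : ι → ℝ} {z : ι} : z ∈ w.Gd X d0 a' v ↔
    z ∈ w.T ∧ P365Z.Gd w.A w.E w.e X d0 a' v z := by
  classical
  simp [TW.Gd]

theorem mem_Oc {v : ι → ℝ} {x : ι} : x ∈ w.Oc d X d0 a' r r' L L' v ↔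
    x ∈ w.Gd X d0 a' v ∧ (w.Mb (Bl d x (2 * r) ∩ w.T) v ≤ L ∧
      w.Mb (Bl d x (2 * r') ∩ w.T) v ≤ L') := by
  classical
  simp [TW.Oc]

/-- allowed centre -/
def EO (w : TW ι) (d : ι → ι → ℝ) (X d0 a' r r' L L' : ℝ) (x : ι) : Set (ι → ℝ) :=
  GS w.A w.E w.e a' X d0 x ∩ (SS w.A w.E w.e (Bl d x (2 * r) ∩ w.T) L ∩
    SS w.A w.E w.e (Bl d x (2 * r') ∩ w.T) L')

/-- real summand -/
noncomputable def fR (w : TW ι) (φ : ι → ℝ) (d : ι → ι → ℝ) (X d0 a' r : ℝ) (x z : ι)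
    (v : ι → ℝ) : ℝ :=
  w.e z * w.e x * (tf w.A w.E w.e φ z x v +
    ∑ y ∈ (Bl d x r ∩ w.T).filter (fun y => y ≠ z ∧ y ≠ x),
      (GS w.A w.E w.e a' X d0 y).indicator (fun v => w.e y * kf w.A w.E w.e φ y z x v) v)

theorem ee_W (v : ι → ℝ) (x : ι) : ee (w.W v) x = w.e x := by
  simp [ee, TW.W, WV]

theorem lamS_T (v : ι → ℝ) (x z : ι) :
    lamS w.A (w.W v) (Bl d x r ∩ w.Gd X d0 a' v) z x * ‖Tm w.A (w.W v) φ z x‖ ^ 2 =
      ∑ y ∈ (Bl d x r ∩ w.T).filter (fun y => y ≠ z ∧ y ≠ x),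
        (GS w.A w.E w.e a' X d0 y).indicator (fun v => w.e y * kf w.A w.E w.e φ y z x v) v := by
  classical
  rw [lamS, Finset.sum_mul]
  have h1 : (Bl d x r ∩ w.Gd X d0 a' v).filter (fun y => y ≠ z ∧ y ≠ x) =
      ((Bl d x r ∩ w.T).filter (fun y => y ≠ z ∧ y ≠ x)).filter
        (fun y => v ∈ GS w.A w.E w.e a' X d0 y) := by
    ext y
    simp only [Finset.mem_filter, Finset.mem_inter, mem_Gd]
    constructor
    · rintro ⟨⟨h1, h2, h3⟩, h4⟩
      exact ⟨⟨⟨h1, h2⟩, h4⟩, h3⟩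
    · rintro ⟨⟨⟨h1, h2⟩, h4⟩, h3⟩
      exact ⟨⟨h1, h2, h3⟩, h4⟩
  rw [h1, Finset.sum_filter (s := (Bl d x r ∩ w.T).filter (fun y => y ≠ z ∧ y ≠ x))]
  refine Finset.sum_congr rfl fun y _ => ?_
  have he : -((w.W v) y).im = w.e y := ee_W v y
  by_cases h : v ∈ GS w.A w.E w.e a' X d0 y
  · rw [if_pos h, Set.indicator_of_mem h, he]
    unfold kf TW.W
    ring
  · rw [if_neg h, Set.indicator_of_notMem h]

theorem JL_eq (v : ι → ℝ) :
    ∑ x ∈ w.Oc d X d0 a' r r' L L' v, ∑ z ∈ (Bl d x r' ∩ w.Gd X d0 a' v).erase x,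
      (kap w.A (w.W v) z x + lamS w.A (w.W v) (Bl d x r ∩ w.Gd X d0 a' v) z x) *
        (ee (w.W v) z * ee (w.W v) x * ‖Tm w.A (w.W v) φ z x‖ ^ 2) =
      ∑ x ∈ w.T, ∑ z ∈ (Bl d x r' ∩ w.T).erase x,
        (EO w d X d0 a' r r' L L' x ∩ GS w.A w.E w.e a' X d0 z).indicator
          (fR w φ d X d0 a' r x z) v := by
  classical
  have h1 : w.Oc d X d0 a' r r' L L' v =
      w.T.filter (fun x => v ∈ EO w d X d0 a' r r' L L' x) := by
    ext x
    rw [mem_Oc, mem_Gd, Finset.mem_filter]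
    constructor
    · rintro ⟨⟨h1, h2⟩, h3, h4⟩
      exact ⟨h1, h2, h3, h4⟩
    · rintro ⟨h1, h2, h3, h4⟩
      exact ⟨⟨h1, h2⟩, h3, h4⟩
  rw [h1, Finset.sum_filter]
  refine Finset.sum_congr rfl fun x _ => ?_
  by_cases hx : v ∈ EO w d X d0 a' r r' L L' x
  · rw [if_pos hx]
    have h2 : (Bl d x r' ∩ w.Gd X d0 a' v).erase x =
        ((Bl d x r' ∩ w.T).erase x).filter (fun z => v ∈ GS w.A w.E w.e a' X d0 z) := by
      ext z
      simp only [Finset.mem_filter, Finset.mem_inter, Finset.mem_erase, mem_Gd]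
      constructor
      · rintro ⟨h1, h2, h3, h4⟩
        exact ⟨⟨h1, h2, h3⟩, h4⟩
      · rintro ⟨⟨h1, h2, h3⟩, h4⟩
        exact ⟨h1, h2, h3, h4⟩
    rw [h2, Finset.sum_filter]
    refine Finset.sum_congr rfl fun z _ => ?_
    by_cases hz : v ∈ GS w.A w.E w.e a' X d0 z
    · have hm : v ∈ EO w d X d0 a' r r' L L' x ∩ GS w.A w.E w.e a' X d0 z := ⟨hx, hz⟩
      rw [if_pos hz, Set.indicator_of_mem hm, fR, ← lamS_T, ee_W, ee_W]
      unfold tf TW.W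
      ring
    · rw [if_neg hz, Set.indicator_of_notMem fun h => hz h.2]
  · rw [if_neg hx]
    symm
    refine Finset.sum_eq_zero fun z _ => ?_
    rw [Set.indicator_of_notMem fun h => hx h.1]

/-! ### integrability -/

variable [∀ x, IsProbabilityMeasure (w.ν x)]

omit [Fintype ι] [DecidableEq ι] in
theorem tf_eq_kT {ι : Type} [Fintype ι] [DecidableEq ι] {A : Matrix ι ι ℝ} {E : ℝ}
    {e φ : ι → ℝ} (z x : ι) :
    tf A E e φ z x = kT A (fun _ => -E) (fun _ => 1) e φ z x := by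
  funext v
  unfold tf kT
  rw [P365Z.WV_eq_Wc]

theorem int_bdd {ι : Type} [Fintype ι] {ν : ι → Measure ℝ} [∀ x, IsProbabilityMeasure (ν x)]
    {f : (ι → ℝ) → ℝ} (hf : Measurable f) (h0 : ∀ v, 0 ≤ f v) {M : ℝ} (hM : ∀ v, f v ≤ M) :
    Integrable f (Measure.pi ν) :=
  Integrable.of_bound hf.aestronglyMeasurable M (Filter.Eventually.of_forall fun v => by
    rw [Real.norm_eq_abs, abs_of_nonneg (h0 v)]; exact hM v)

theorem int_tf (hA : w.A.IsSymm) (he : ∀ x, 0 < w.e x) (z x : ι) :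
    Integrable (tf w.A w.E w.e φ z x) (Measure.pi w.ν) := by
  obtain ⟨M, hM0, hM⟩ := bdd_kT (U := fun _ => -w.E) (g := fun _ => (1 : ℝ)) (a := φ) hA he z x
  refine int_bdd (m_tf z x) (tf_nonneg hA he z x) (M := M) fun v => ?_
  rw [tf_eq_kT]
  exact hM v

theorem int_kf (hA : w.A.IsSymm) (he : ∀ x, 0 < w.e x) (y z x : ι) :
    Integrable (kf w.A w.E w.e φ y z x) (Measure.pi w.ν) := by
  obtain ⟨M, hM0, hM⟩ := bdd_kkT (U := fun _ => -w.E) (g := fun _ => (1 : ℝ)) (a := φ) hA he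
    y z x
  refine int_bdd (m_kf y z x) (kf_nonneg hA he y z x) (M := M) fun v => ?_
  refine le_trans (le_of_eq ?_) (hM v)
  unfold kf kkT
  rw [P365Z.WV_eq_Wc]

theorem int_lf (hA : w.A.IsSymm) (he : ∀ x, 0 < w.e x) (z : ι) :
    Integrable (lf w.A w.E w.e φ z) (Measure.pi w.ν) := by
  obtain ⟨M, hM0, hM⟩ := Ls_bounded (U := fun _ => -w.E) (g := fun _ => (1 : ℝ)) hA he φ
  refine int_bdd (m_lf z) (lf_nonneg hA he z) (M := M) fun v => ?_
  refine le_trans (le_of_eq ?_) (hM v z)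
  rw [Ls_eq hA (Wc_neg he v), ← P365Z.WV_eq_Wc]
  rfl

theorem int_fR (hA : w.A.IsSymm) (he : ∀ x, 0 < w.e x) (x z : ι) :
    Integrable (fR w φ d X d0 a' r x z) (Measure.pi w.ν) := by
  unfold fR
  refine Integrable.const_mul ((int_tf hA he z x).add (integrable_finsetSum _ fun y _ => ?_)) _
  exact ((int_kf hA he y z x).const_mul _).indicator (measurableSet_GS _ _ _ _)

omit [∀ x, IsProbabilityMeasure (w.ν x)] in
theorem fR_nonneg (hA : w.A.IsSymm) (he : ∀ x, 0 < w.e x) (x z : ι) (v : ι → ℝ) :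
    0 ≤ fR w φ d X d0 a' r x z v :=
  mul_nonneg (mul_nonneg (he z).le (he x).le) (add_nonneg (tf_nonneg hA he z x v)
    (Finset.sum_nonneg fun y _ => Set.indicator_nonneg
      (fun v _ => mul_nonneg (he y).le (kf_nonneg hA he y z x v)) v))

omit [∀ x, IsProbabilityMeasure (w.ν x)] in
theorem measurableSet_EO (x : ι) : MeasurableSet (EO w d X d0 a' r r' L L' x) :=
  (measurableSet_GS _ _ _ _).inter ((measurableSet_SS _ _).inter (measurableSet_SS _ _))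

theorem int_JL (hA : w.A.IsSymm) (he : ∀ x, 0 < w.e x) :
    Integrable (fun v => ∑ x ∈ w.T, ∑ z ∈ (Bl d x r' ∩ w.T).erase x,
        (EO w d X d0 a' r r' L L' x ∩ GS w.A w.E w.e a' X d0 z).indicator
          (fR w φ d X d0 a' r x z) v) (Measure.pi w.ν) :=
  integrable_finsetSum _ fun x _ => integrable_finsetSum _ fun z _ =>
    (int_fR hA he x z).indicator ((measurableSet_EO x).inter (measurableSet_GS _ _ _ _))

/-- the truncated loss as a nonnegative integral -/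
theorem Lo_eq (hA : w.A.IsSymm) (he : ∀ x, 0 < w.e x) :
    ENNReal.ofReal (w.Lo φ X d0 a') = LoE w.ν w.A w.E w.e φ a' X d0 w.T ∧
      0 ≤ w.Lo φ X d0 a' := by
  classical
  have h1 : ∀ v, ∑ z ∈ w.Gd X d0 a' v, w.e z * (mm w.A (w.W v) z * muf w.A (w.W v) φ z ^ 2) =
      ∑ z ∈ w.T, (GS w.A w.E w.e a' X d0 z).indicator
        (fun v => w.e z * lf w.A w.E w.e φ z v) v := by
    intro v
    have h2 : w.Gd X d0 a' v = w.T.filter (fun z => v ∈ GS w.A w.E w.e a' X d0 z) := by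
      ext z
      rw [mem_Gd, Finset.mem_filter]
      rfl
    rw [h2, Finset.sum_filter]
    refine Finset.sum_congr rfl fun z _ => ?_
    by_cases hz : v ∈ GS w.A w.E w.e a' X d0 z
    · rw [if_pos hz, Set.indicator_of_mem hz]
      rfl
    · rw [if_neg hz, Set.indicator_of_notMem hz]
  have h0 : ∀ v, 0 ≤ ∑ z ∈ w.T, (GS w.A w.E w.e a' X d0 z).indicator
        (fun v => w.e z * lf w.A w.E w.e φ z v) v := fun v =>
    Finset.sum_nonneg fun z _ => Set.indicator_nonneg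
      (fun v _ => mul_nonneg (he z).le (lf_nonneg hA he z v)) v
  have hi : Integrable (fun v => ∑ z ∈ w.T, (GS w.A w.E w.e a' X d0 z).indicator
        (fun v => w.e z * lf w.A w.E w.e φ z v) v) (Measure.pi w.ν) :=
    integrable_finsetSum _ fun z _ =>
      ((int_lf hA he z).const_mul _).indicator (measurableSet_GS _ _ _ _)
  unfold TW.Lo
  simp only [h1]
  refine ⟨?_, integral_nonneg h0⟩
  rw [ofReal_integral_eq_lintegral_ofReal hi (Filter.Eventually.of_forall h0)]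
  have h3 : ∀ v, ENNReal.ofReal (∑ z ∈ w.T, (GS w.A w.E w.e a' X d0 z).indicator
        (fun v => w.e z * lf w.A w.E w.e φ z v) v) =
      ∑ z ∈ w.T, ENNReal.ofReal (w.e z) *
        on (GS w.A w.E w.e a' X d0 z) (lf w.A w.E w.e φ z) v := by
    intro v
    rw [ENNReal.ofReal_sum_of_nonneg fun z _ => Set.indicator_nonneg
      (fun v _ => mul_nonneg (he z).le (lf_nonneg hA he z v)) v]
    refine Finset.sum_congr rfl fun z _ => ?_
    by_cases hz : v ∈ GS w.A w.E w.e a' X d0 z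
    · rw [Set.indicator_of_mem hz, on_mem hz, ENNReal.ofReal_mul (he z).le]
    · rw [Set.indicator_of_notMem hz, on_not hz, ENNReal.ofReal_zero, mul_zero]
  simp only [h3]
  rw [lintegral_finsetSum _ fun z _ =>
    (m_on (measurableSet_GS _ _ _ _) (m_lf z)).const_mul _]
  refine Finset.sum_congr rfl fun z _ => ?_
  rw [lintegral_const_mul' _ _ ENNReal.ofReal_ne_top]

/-- **the kick sums** -/
theorem JL_IB {D c0 δ0 : ℝ} (hw : w.Ok D c0 δ0 a') (hD0 : 0 ≤ D) (hc0 : 0 < c0) (hδ : 0 < δ0)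
    (hd0 : 0 < d0) (hX : 0 ≤ X) (hd00 : ∀ x, d x x = 0) (hds : ∀ x y, d x y = d y x)
    (hdt : ∀ x y z, d x z ≤ d x y + d y z) (hr : 0 ≤ r) (hrr : r ≤ r') (hL' : 0 ≤ L')
    (hC : 0 ≤ CJL D c0 δ0 X d0 L') :
    IB (Measure.pi w.ν) (fun v => ∑ x ∈ w.Oc d X d0 a' r r' L L' v,
        ∑ z ∈ (Bl d x r' ∩ w.Gd X d0 a' v).erase x,
          (kap w.A (w.W v) z x + lamS w.A (w.W v) (Bl d x r ∩ w.Gd X d0 a' v) z x) *
            (ee (w.W v) z * ee (w.W v) x * ‖Tm w.A (w.W v) φ z x‖ ^ 2))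
      (CJL D c0 δ0 X d0 L' * w.Lo φ (Xn δ0 (Xn δ0 X d0) (dn δ0 X d0))
          (dn δ0 (Xn δ0 X d0) (dn δ0 X d0)) a') := by
  have hA := hw.symm
  have he := hw.e_pos
  have hi := int_JL (w := w) (φ := φ) (d := d) (X := X) (d0 := d0) (a' := a') (r := r)
    (r' := r') (L := L) (L' := L') hA he
  have h0 : ∀ v, 0 ≤ ∑ x ∈ w.T, ∑ z ∈ (Bl d x r' ∩ w.T).erase x,
        (EO w d X d0 a' r r' L L' x ∩ GS w.A w.E w.e a' X d0 z).indicator
          (fR w φ d X d0 a' r x z) v := fun v =>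
    Finset.sum_nonneg fun x _ => Finset.sum_nonneg fun z _ => Set.indicator_nonneg
      (fun v _ => fR_nonneg hA he x z v) v
  simp only [JL_eq]
  refine ⟨hi, ?_⟩
  obtain ⟨hLo, hLo0⟩ := Lo_eq (w := w) (φ := φ) (a' := a')
    (X := Xn δ0 (Xn δ0 X d0) (dn δ0 X d0)) (d0 := dn δ0 (Xn δ0 X d0) (dn δ0 X d0)) hA he
  rw [← ENNReal.ofReal_le_ofReal_iff (mul_nonneg hC hLo0),
    ofReal_integral_eq_lintegral_ofReal hi (Filter.Eventually.of_forall h0),
    ENNReal.ofReal_mul hC, hLo]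
  refine le_trans ?_ (JL_sum (ν := w.ν) (E := w.E) (a := φ) (T := w.T) (d := d) (r := r)
    (r' := r') hA he hD0 hc0 hδ hd0 hX hw.dens hw.flat hds hdt hd00 hr hrr hL')
  -- move the integral inside
  have hpt : ∀ v, ENNReal.ofReal (∑ x ∈ w.T, ∑ z ∈ (Bl d x r' ∩ w.T).erase x,
        (EO w d X d0 a' r r' L L' x ∩ GS w.A w.E w.e a' X d0 z).indicator
          (fR w φ d X d0 a' r x z) v) ≤
      ∑ x ∈ w.T, ∑ z ∈ (Bl d x r' ∩ w.T).erase x, ENNReal.ofReal (w.e z * w.e x) *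
      (on (GS w.A w.E w.e a' X d0 x ∩ GS w.A w.E w.e a' X d0 z ∩
          SS w.A w.E w.e (Bl d x (2 * r') ∩ w.T) L') (tf w.A w.E w.e φ z x) v +
      ∑ y ∈ (Bl d x r ∩ w.T).filter (fun y => y ≠ z ∧ y ≠ x), ENNReal.ofReal (w.e y) *
        on (GS w.A w.E w.e a' X d0 y ∩ GS w.A w.E w.e a' X d0 z ∩ GS w.A w.E w.e a' X d0 x ∩
          SS w.A w.E w.e (Bl d x (2 * r') ∩ w.T) L') (kf w.A w.E w.e φ y z x) v) := by
    intro v
    rw [ENNReal.ofReal_sum_of_nonneg fun x _ => Finset.sum_nonneg fun z _ =>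
      Set.indicator_nonneg (fun v _ => fR_nonneg hA he x z v) v]
    refine Finset.sum_le_sum fun x _ => ?_
    rw [ENNReal.ofReal_sum_of_nonneg fun z _ =>
      Set.indicator_nonneg (fun v _ => fR_nonneg hA he x z v) v]
    refine Finset.sum_le_sum fun z _ => ?_
    by_cases hv : v ∈ EO w d X d0 a' r r' L L' x ∩ GS w.A w.E w.e a' X d0 z
    · rw [Set.indicator_of_mem hv, fR, ENNReal.ofReal_mul (mul_nonneg (he z).le (he x).le)]
      refine mul_le_mul_right ?_ _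
      have hx1 : v ∈ GS w.A w.E w.e a' X d0 x := hv.1.1
      have hx2 : v ∈ SS w.A w.E w.e (Bl d x (2 * r') ∩ w.T) L' := hv.1.2.2
      have hz1 : v ∈ GS w.A w.E w.e a' X d0 z := hv.2
      rw [ENNReal.ofReal_add (tf_nonneg hA he z x v) (Finset.sum_nonneg fun y _ =>
        Set.indicator_nonneg (fun v _ => mul_nonneg (he y).le (kf_nonneg hA he y z x v)) v)]
      refine add_le_add (le_of_eq ?_) ?_
      · have hm : v ∈ GS w.A w.E w.e a' X d0 x ∩ GS w.A w.E w.e a' X d0 z ∩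
          SS w.A w.E w.e (Bl d x (2 * r') ∩ w.T) L' := ⟨⟨hx1, hz1⟩, hx2⟩
        rw [on_mem hm]
      · rw [ENNReal.ofReal_sum_of_nonneg fun y _ =>
          Set.indicator_nonneg (fun v _ => mul_nonneg (he y).le (kf_nonneg hA he y z x v)) v]
        refine Finset.sum_le_sum fun y _ => ?_
        by_cases hy : v ∈ GS w.A w.E w.e a' X d0 y
        · have hm : v ∈ GS w.A w.E w.e a' X d0 y ∩ GS w.A w.E w.e a' X d0 z ∩
            GS w.A w.E w.e a' X d0 x ∩ SS w.A w.E w.e (Bl d x (2 * r') ∩ w.T) L' :=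
            ⟨⟨⟨hy, hz1⟩, hx1⟩, hx2⟩
          rw [Set.indicator_of_mem hy, on_mem hm, ENNReal.ofReal_mul (he y).le]
        · rw [Set.indicator_of_notMem hy, ENNReal.ofReal_zero]
          exact zero_le
    · rw [Set.indicator_of_notMem hv, ENNReal.ofReal_zero]
      exact zero_le
  have mt : ∀ x z, Measurable (on (GS w.A w.E w.e a' X d0 x ∩ GS w.A w.E w.e a' X d0 z ∩
          SS w.A w.E w.e (Bl d x (2 * r') ∩ w.T) L') (tf w.A w.E w.e φ z x)) := fun x z =>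
    m_on (((measurableSet_GS _ _ _ _).inter (measurableSet_GS _ _ _ _)).inter
      (measurableSet_SS _ _)) (m_tf z x)
  have mk : ∀ x z y, Measurable (on (GS w.A w.E w.e a' X d0 y ∩ GS w.A w.E w.e a' X d0 z ∩
        GS w.A w.E w.e a' X d0 x ∩
          SS w.A w.E w.e (Bl d x (2 * r') ∩ w.T) L') (kf w.A w.E w.e φ y z x)) :=
    fun x z y => m_on ((((measurableSet_GS _ _ _ _).inter (measurableSet_GS _ _ _ _)).inter
      (measurableSet_GS _ _ _ _)).inter (measurableSet_SS _ _)) (m_kf y z x)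
  have mx : ∀ x z, Measurable fun v => ENNReal.ofReal (w.e z * w.e x) *
      (on (GS w.A w.E w.e a' X d0 x ∩ GS w.A w.E w.e a' X d0 z ∩
          SS w.A w.E w.e (Bl d x (2 * r') ∩ w.T) L') (tf w.A w.E w.e φ z x) v +
      ∑ y ∈ (Bl d x r ∩ w.T).filter (fun y => y ≠ z ∧ y ≠ x), ENNReal.ofReal (w.e y) *
        on (GS w.A w.E w.e a' X d0 y ∩ GS w.A w.E w.e a' X d0 z ∩ GS w.A w.E w.e a' X d0 x ∩
          SS w.A w.E w.e (Bl d x (2 * r') ∩ w.T) L') (kf w.A w.E w.e φ y z x) v) := fun x z =>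
    ((mt x z).add (Finset.measurable_sum _ fun y _ => (mk x z y).const_mul _)).const_mul _
  refine (lintegral_mono hpt).trans (le_of_eq ?_)
  rw [lintegral_finsetSum _ fun x _ => Finset.measurable_sum _ fun z _ => mx x z]
  refine Finset.sum_congr rfl fun x _ => ?_
  rw [lintegral_finsetSum _ fun z _ => mx x z]
  refine Finset.sum_congr rfl fun z _ => ?_
  rw [lintegral_const_mul' _ _ ENNReal.ofReal_ne_top, lintegral_add_left (mt x z),
    lintegral_finsetSum _ fun y _ => (mk x z y).const_mul _]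
  congr 2
  refine Finset.sum_congr rfl fun y _ => ?_
  rw [lintegral_const_mul' _ _ ENNReal.ofReal_ne_top]

end tw

/-- **Z3c** -/
theorem jlz : P365Z0.S351.JLZ := by
  intro D c0 δ0 X d0 L' hD hc0 hδ hX hd0 hL'
  have hd1 : 0 < dn δ0 X d0 := dn_pos hX.le hδ hd0
  have hX1 : 0 < Xn δ0 X d0 := Xn_pos hX.le hδ hd0
  have hk := kq_pos (X := X) hc0 hδ hd0
  have hpi := Real.pi_pos
  have hc2 : 0 ≤ c2 (X + 1) (hq δ0 d0) := by unfold c2; positivity
  have hCT := CT_nonneg (X := X) hD.le hc0 hδ hd0 hL'.le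
  have hCT1 := CT_nonneg (X := Xn δ0 X d0) hD.le hc0 hδ hd1 (show 0 ≤ L' + 1 by linarith)
  have hC : 0 ≤ CJL D c0 δ0 X d0 L' := by unfold CJL; positivity
  refine ⟨CJL D c0 δ0 X d0 L' + 1, Xn δ0 (Xn δ0 X d0) (dn δ0 X d0),
    dn δ0 (Xn δ0 X d0) (dn δ0 X d0), by linarith, Xn_pos hX1.le hδ hd1,
    dn_pos hX1.le hδ hd1, ?_⟩
  intro ι _ _ w φ d a' r r' L hw hd00 hds hdt hr hrr
  haveI := hw.prob
  have h := JL_IB (w := w) (φ := φ) (L := L) hw hD.le hc0 hδ hd0 hX.le hd00 hds hdt hr hrr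
    hL'.le hC
  refine h.mono ?_
  have h2 := (Lo_eq (w := w) (φ := φ) (a' := a') (X := Xn δ0 (Xn δ0 X d0) (dn δ0 X d0))
    (d0 := dn δ0 (Xn δ0 X d0) (dn δ0 X d0)) hw.symm hw.e_pos).2
  nlinarith

end P365Z0.H945
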