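import Vale.Agent.P365.Z0.H945.ST
import Vale.Agent.P365.L1.Near3

/-!
# P365 zero-dimensional spectrum, static step (Z3c): sums over pairs

* `pairT` : `Σ_z Σ_w e_z e_w E κ_zw |T_zw|²` over good uncrowded pairs is at most `C ·` loss.
* `ST2_sum` : the three-point observable is controlled by the two-point observable.
-/

set_option linter.all false

namespace P365Z0.H945

open Matrix Complex MeasureTheory P365Z0 P365Z0.H990 P365L P365L.Stat P365T1
open scoped ComplexConjugate ENNReal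

variable {ι : Type*} [Fintype ι] [DecidableEq ι] {A : Matrix ι ι ℝ} {E : ℝ} {e : ι → ℝ}
  {ν : ι → Measure ℝ} {a : ι → ℝ}

/-- the loss functional of the good traps -/
noncomputable def LoE (ν : ι → Measure ℝ) (A : Matrix ι ι ℝ) (E : ℝ) (e a : ι → ℝ)
    (a' X d : ℝ) (T : Finset ι) : ℝ≥0∞ :=
  ∑ z ∈ T, ENNReal.ofReal (e z) *
    ∫⁻ v, on (GS A E e a' X d z) (lf A E e a z) v ∂(Measure.pi ν)

theorem LoE_mono (hA : A.IsSymm) (he : ∀ x, 0 < e x) {a' X d X' d' : ℝ} (hX : X ≤ X')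
    (hd : d' ≤ d) (T : Finset ι) : LoE ν A E e a a' X d T ≤ LoE ν A E e a a' X' d' T := by
  refine Finset.sum_le_sum fun z _ => mul_le_mul_right (lintegral_mono fun v => ?_) _
  exact on_mono (GS_mono hA he hX hd z) (fun _ _ => le_rfl) v

theorem dn_le {δ0 X d0 : ℝ} (hX : 0 ≤ X) (hδ : 0 < δ0) (hd : 0 < d0) : dn δ0 X d0 ≤ d0 := by
  have := Xn_ge hX hδ hd
  unfold dn
  exact div_le_self hd.le (by linarith)

theorem dn_pos {δ0 X d0 : ℝ} (hX : 0 ≤ X) (hδ : 0 < δ0) (hd : 0 < d0) : 0 < dn δ0 X d0 :=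
  div_pos hd (Xn_pos hX hδ hd)

/-- pointwise Ward sum -/
theorem sum_uf (hA : A.IsSymm) (he : ∀ x, 0 < e x) (w : ι) (v : ι → ℝ) :
    ∑ z, e z * uf A E e a z w v = lf A E e a w v := by
  have h1 := mm_eq hA (WV_neg (E := E) he v) w
  unfold uf lf
  rw [h1, Finset.sum_mul]
  refine Finset.sum_congr rfl fun z _ => ?_
  have h2 : -(WV E e v z).im = e z := by simp [WV]
  rw [h2, KK_symm hA w z]
  ring

/-- integrated Ward sum -/
theorem ward_sum (hA : A.IsSymm) (he : ∀ x, 0 < e x) (a' X d : ℝ) (T : Finset ι)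
    (Bz : ι → Finset ι) (hB : ∀ z, Bz z ⊆ T) :
    ∑ z ∈ T, ENNReal.ofReal (e z) * ∑ w ∈ Bz z, ENNReal.ofReal (e w) *
      ∫⁻ v, on (GS A E e a' X d w) (uf A E e a z w) v ∂(Measure.pi ν) ≤
      LoE ν A E e a a' X d T := by
  calc ∑ z ∈ T, ENNReal.ofReal (e z) * ∑ w ∈ Bz z, ENNReal.ofReal (e w) *
      ∫⁻ v, on (GS A E e a' X d w) (uf A E e a z w) v ∂(Measure.pi ν)
      ≤ ∑ z, ENNReal.ofReal (e z) * ∑ w ∈ T, ENNReal.ofReal (e w) *
        ∫⁻ v, on (GS A E e a' X d w) (uf A E e a z w) v ∂(Measure.pi ν) := by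
        refine (Finset.sum_le_sum fun z _ => mul_le_mul_right
          (Finset.sum_le_sum_of_subset (hB z)) _).trans ?_
        exact Finset.sum_le_sum_of_subset (Finset.subset_univ _)
    _ = ∑ w ∈ T, ENNReal.ofReal (e w) * ∑ z, ENNReal.ofReal (e z) *
        ∫⁻ v, on (GS A E e a' X d w) (uf A E e a z w) v ∂(Measure.pi ν) := by
        simp_rw [Finset.mul_sum]
        rw [Finset.sum_comm]
        refine Finset.sum_congr rfl fun w _ => Finset.sum_congr rfl fun z _ => ?_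
        ring
    _ ≤ LoE ν A E e a a' X d T := by
        refine Finset.sum_le_sum fun w _ => mul_le_mul_right ?_ _
        have h1 : ∀ z, ENNReal.ofReal (e z) *
            ∫⁻ v, on (GS A E e a' X d w) (uf A E e a z w) v ∂(Measure.pi ν) =
            ∫⁻ v, ENNReal.ofReal (e z) * on (GS A E e a' X d w) (uf A E e a z w) v
              ∂(Measure.pi ν) := fun z =>
          (lintegral_const_mul' _ _ ENNReal.ofReal_ne_top).symm
        simp_rw [h1]
        rw [← lintegral_finsetSum Finset.univ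
          (f := fun z v => ENNReal.ofReal (e z) * on (GS A E e a' X d w) (uf A E e a z w) v)
          fun z _ => (m_on (measurableSet_GS _ _ _ _) (m_uf z w)).const_mul _]
        refine lintegral_mono fun v => ?_
        show ∑ z, ENNReal.ofReal (e z) * on (GS A E e a' X d w) (uf A E e a z w) v ≤ _
        by_cases hv : v ∈ GS A E e a' X d w
        · rw [on_mem hv]
          have h2 : ∀ z, ENNReal.ofReal (e z) * on (GS A E e a' X d w) (uf A E e a z w) v =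
              ENNReal.ofReal (e z * uf A E e a z w v) := fun z => by
            rw [on_mem hv, ENNReal.ofReal_mul (he z).le]
          rw [Finset.sum_congr rfl fun z _ => h2 z,
            ← ENNReal.ofReal_sum_of_nonneg fun z _ => mul_nonneg (he z).le (uf_nonneg z w v),
            sum_uf hA he]
        · rw [on_not hv]
          refine le_of_eq (Finset.sum_eq_zero fun z _ => ?_)
          rw [on_not hv, mul_zero]

theorem tf_le (hA : A.IsSymm) (he : ∀ x, 0 < e x) (z w : ι) (v : ι → ℝ) :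
    tf A E e a z w v ≤ 2 * qf A E e a z w v + 1 / 2 * uf A E e a z w v := by
  have hW := WV_neg (E := E) he v
  have h1 := Tm_sq_le (A := A) (a := a) (WV E e v) z w
  have h2 := kap_nonneg hA hW z w
  have h3 := (kap_lt_one hA hW z w).le
  have h4 := uf_nonneg (A := A) (E := E) (e := e) (a := a) z w v
  unfold tf qf
  calc kap A (WV E e v) z w * ‖Tm A (WV E e v) a z w‖ ^ 2
      ≤ kap A (WV E e v) z w * (2 * ‖Qm A (WV E e v) a z w‖ ^ 2 +
          1 / 2 * (muf A (WV E e v) a w ^ 2 * KK A (WV E e v) z w)) :=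
        mul_le_mul_of_nonneg_left h1 h2
    _ = 2 * (kap A (WV E e v) z w * ‖Qm A (WV E e v) a z w‖ ^ 2) +
          kap A (WV E e v) z w * (1 / 2 * uf A E e a z w v) := by unfold uf; ring
    _ ≤ _ := by nlinarith

/-- constant of `pairT` -/
noncomputable def CT (D c0 δ0 X d0 L : ℝ) : ℝ :=
  2 * (c1 (X + 1) (hq δ0 d0) / kq c0 δ0 X d0 * (Real.pi * D * (L + 1))) + 1 / 2

theorem c1_nonneg (X h : ℝ) : 0 ≤ c1 X h := sq_nonneg _

theorem CT_nonneg {D c0 δ0 X d0 L : ℝ} (hD : 0 ≤ D) (hc : 0 < c0) (hδ : 0 < δ0) (hd : 0 < d0)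
    (hL : 0 ≤ L) : 0 ≤ CT D c0 δ0 X d0 L := by
  have h1 := kq_pos (X := X) hc hδ hd
  have h2 := c1_nonneg (X + 1) (hq δ0 d0)
  have h3 := Real.pi_pos
  unfold CT
  positivity

/-- **pairs**: the sum over the observed sites `z ∈ T` and the kicked sites `w ∈ Bz z` -/
theorem pairT [∀ x, IsProbabilityMeasure (ν x)] (hA : A.IsSymm) (he : ∀ x, 0 < e x)
    {D c0 a' δ0 X d0 : ℝ} (hD0 : 0 ≤ D)
    (hc0 : 0 < c0) (hδ : 0 < δ0) (hd0 : 0 < d0) (hX : 0 ≤ X) {T : Finset ι}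
    (hD : ∀ y ∈ T, DensLe D (ν y)) (hν : ∀ y ∈ T, DensGe c0 (a' + δ0) (ν y))
    {Bz : ι → Finset ι} (hB : ∀ z, Bz z ⊆ T) {L : ℝ} (hL : 0 ≤ L) :
    ∑ z ∈ T, ENNReal.ofReal (e z) * ∑ w ∈ (Bz z).erase z, ENNReal.ofReal (e w) *
      ∫⁻ v, on (GS A E e a' X d0 w ∩ GS A E e a' X d0 z ∩ SS A E e (Bz z) L)
        (tf A E e a z w) v ∂(Measure.pi ν) ≤
      ENNReal.ofReal (CT D c0 δ0 X d0 L) *
        LoE ν A E e a a' (Xn δ0 X d0) (dn δ0 X d0) T := by
  have hk := kq_pos (X := X) hc0 hδ hd0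
  have hc1 := c1_nonneg (X + 1) (hq δ0 d0)
  have hpi := Real.pi_pos
  -- pointwise
  have hpt : ∀ z w v, on (GS A E e a' X d0 w ∩ GS A E e a' X d0 z ∩ SS A E e (Bz z) L)
        (tf A E e a z w) v ≤
      ENNReal.ofReal 2 * on (GS A E e a' X d0 w ∩ GS A E e a' X d0 z ∩ SS A E e (Bz z) L)
        (qf A E e a z w) v +
      ENNReal.ofReal (1 / 2) * on (GS A E e a' X d0 w) (uf A E e a z w) v := by
    intro z w v
    by_cases hv : v ∈ GS A E e a' X d0 w ∩ GS A E e a' X d0 z ∩ SS A E e (Bz z) L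
    · rw [on_mem hv, on_mem hv, on_mem hv.1.1, ← ENNReal.ofReal_mul (by norm_num),
        ← ENNReal.ofReal_mul (by norm_num), ← ENNReal.ofReal_add
          (mul_nonneg (by norm_num) (qf_nonneg hA he z w v))
          (mul_nonneg (by norm_num) (uf_nonneg z w v))]
      exact ENNReal.ofReal_le_ofReal (tf_le hA he z w v)
    · rw [on_not hv]
      exact zero_le
  have hint : ∀ z w, ∫⁻ v, on (GS A E e a' X d0 w ∩ GS A E e a' X d0 z ∩ SS A E e (Bz z) L)
        (tf A E e a z w) v ∂(Measure.pi ν) ≤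
      ENNReal.ofReal 2 * ∫⁻ v, on (GS A E e a' X d0 w ∩ GS A E e a' X d0 z ∩
        SS A E e (Bz z) L) (qf A E e a z w) v ∂(Measure.pi ν) +
      ENNReal.ofReal (1 / 2) * ∫⁻ v, on (GS A E e a' X d0 w) (uf A E e a z w) v
        ∂(Measure.pi ν) := by
    intro z w
    rw [← lintegral_const_mul' _ _ ENNReal.ofReal_ne_top,
      ← lintegral_const_mul' _ _ ENNReal.ofReal_ne_top, ← lintegral_add_left
        ((m_on (((measurableSet_GS _ _ _ _).inter (measurableSet_GS _ _ _ _)).inter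
          (measurableSet_SS _ _)) (m_qf z w)).const_mul _)]
    exact lintegral_mono fun v => hpt z w v
  have hward := ward_sum (ν := ν) (E := E) (a := a) hA he a' X d0 T (fun z => (Bz z).erase z)
    (fun z => (Finset.erase_subset _ _).trans (hB z))
  have hmono := LoE_mono (ν := ν) (E := E) (a := a) (a' := a') hA he
    (show X ≤ Xn δ0 X d0 by have := Xn_ge hX hδ hd0; linarith) (dn_le hX hδ hd0) T
  set K : ℝ := c1 (X + 1) (hq δ0 d0) / kq c0 δ0 X d0 with hK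
  have hK0 : 0 ≤ K := div_nonneg hc1 hk.le
  set J : ι → ℝ≥0∞ := fun z =>
    ∫⁻ v, on (GS A E e a' (Xn δ0 X d0) (dn δ0 X d0) z) (lf A E e a z) v ∂(Measure.pi ν) with hJ
  have h1 : ∀ z ∈ T, ENNReal.ofReal (e z) * ∑ w ∈ (Bz z).erase z, ENNReal.ofReal (e w) *
      ∫⁻ v, on (GS A E e a' X d0 w ∩ GS A E e a' X d0 z ∩ SS A E e (Bz z) L)
        (tf A E e a z w) v ∂(Measure.pi ν) ≤
      ENNReal.ofReal (2 * (K * (Real.pi * D * (L + 1)))) * (ENNReal.ofReal (e z) * J z) +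
      ENNReal.ofReal (1 / 2) * (ENNReal.ofReal (e z) * ∑ w ∈ (Bz z).erase z,
        ENNReal.ofReal (e w) *
        ∫⁻ v, on (GS A E e a' X d0 w) (uf A E e a z w) v ∂(Measure.pi ν)) := by
    intro z hz
    have h2 := ST1_sum (ν := ν) (E := E) (a := a) hA he hD0 hc0 hδ hd0 hX
      (Finset.erase_subset z (Bz z)) (Finset.notMem_erase z (Bz z))
      (fun y hy => hD y (hB z (Finset.mem_of_mem_erase hy)))
      (fun y hy => hν y (hB z (Finset.mem_of_mem_erase hy))) L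
    have h3 : ∑ w ∈ (Bz z).erase z, ENNReal.ofReal (e w) *
      ∫⁻ v, on (GS A E e a' X d0 w ∩ GS A E e a' X d0 z ∩ SS A E e (Bz z) L)
        (tf A E e a z w) v ∂(Measure.pi ν) ≤
        ENNReal.ofReal 2 * ∑ w ∈ (Bz z).erase z, ENNReal.ofReal (e w) *
          ∫⁻ v, on (GS A E e a' X d0 w ∩ GS A E e a' X d0 z ∩ SS A E e (Bz z) L)
          (qf A E e a z w) v ∂(Measure.pi ν) +
        ENNReal.ofReal (1 / 2) * ∑ w ∈ (Bz z).erase z, ENNReal.ofReal (e w) *
          ∫⁻ v, on (GS A E e a' X d0 w) (uf A E e a z w) v ∂(Measure.pi ν) := by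
      rw [Finset.mul_sum, Finset.mul_sum, ← Finset.sum_add_distrib]
      refine Finset.sum_le_sum fun w _ => ?_
      refine (mul_le_mul_right (hint z w) _).trans (le_of_eq ?_)
      ring
    have h4 : ENNReal.ofReal 2 * (ENNReal.ofReal K * (ENNReal.ofReal (Real.pi * D) *
        (ENNReal.ofReal (L + 1) * J z))) =
        ENNReal.ofReal (2 * (K * (Real.pi * D * (L + 1)))) * J z := by
      rw [← mul_assoc, ← mul_assoc, ← mul_assoc, ← ENNReal.ofReal_mul (by norm_num),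
        ← ENNReal.ofReal_mul (by positivity), ← ENNReal.ofReal_mul (by positivity)]
      congr 2
      ring
    have h5 : ∑ w ∈ (Bz z).erase z, ENNReal.ofReal (e w) *
      ∫⁻ v, on (GS A E e a' X d0 w ∩ GS A E e a' X d0 z ∩ SS A E e (Bz z) L)
        (tf A E e a z w) v ∂(Measure.pi ν) ≤
        ENNReal.ofReal (2 * (K * (Real.pi * D * (L + 1)))) * J z +
        ENNReal.ofReal (1 / 2) * ∑ w ∈ (Bz z).erase z, ENNReal.ofReal (e w) *
          ∫⁻ v, on (GS A E e a' X d0 w) (uf A E e a z w) v ∂(Measure.pi ν) := by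
      refine h3.trans ?_
      rw [← h4]
      gcongr
    refine (mul_le_mul_right h5 _).trans (le_of_eq ?_)
    ring
  refine (Finset.sum_le_sum h1).trans ?_
  rw [Finset.sum_add_distrib, ← Finset.mul_sum, ← Finset.mul_sum]
  have h6 : ENNReal.ofReal (CT D c0 δ0 X d0 L) =
      ENNReal.ofReal (2 * (K * (Real.pi * D * (L + 1)))) + ENNReal.ofReal (1 / 2) := by
    rw [CT, ENNReal.ofReal_add (by positivity) (by norm_num)]
  rw [h6, add_mul]
  refine add_le_add (le_of_eq rfl) ?_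
  exact mul_le_mul_right (hward.trans hmono) _

/-- (T2) at a good triple -/
theorem T2_site (hA : A.IsSymm) (he : ∀ x, 0 < e x) {c0 a' δ0 X d0 : ℝ}
    (hc0 : 0 < c0) (hδ : 0 < δ0) (hd0 : 0 < d0) (hX : 0 ≤ X) {y z w : ι} (hzy : z ≠ y)
    (hwy : w ≠ y) (hν : DensGe c0 (a' + δ0) (ν y)) {v : ι → ℝ}
    (hy : P365Z.Gd A E e X d0 a' v y) (hz : P365Z.Gd A E e X d0 a' v z)
    (hw : P365Z.Gd A E e X d0 a' v w) {B : Finset ι} {L : ℝ} (hv : v ∈ SS A E e B L) :
    ENNReal.ofReal (kf A E e a y z w v) ≤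
      ENNReal.ofReal (c2 (X + 1) (hq δ0 d0) / kq c0 δ0 X d0) *
        (ENNReal.ofReal (mm A (WV E e v) y) * Io ν A E e y
          (on (GS A E e a' (Xn δ0 X d0) (dn δ0 X d0) w ∩
            GS A E e a' (Xn δ0 X d0) (dn δ0 X d0) z ∩ SS A E e B (L + 1))
            (tf A E e a z w)) v) := by
  have hh := hq_pos hδ hd0
  have hh1 := hq_six (δ0 := δ0) (d0 := d0)
  have hW := WV_neg (E := E) he v
  have hm := mm_pos hA hW y
  have hX1 : 1 ≤ X + 1 := by linarith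
  have hc2 : 0 < c2 (X + 1) (hq δ0 d0) := by
    have := ck_ge_one (K := X + 1 + 1) (by linarith) hh (by linarith)
    unfold c2
    positivity
  have hF : 0 ≤ kap A (WV E e v) z y * kap A (WV E e v) y w * ‖Tm A (WV E e v) a z w‖ ^ 2 :=
    mul_nonneg (mul_nonneg (kap_nonneg hA hW z y) (kap_nonneg hA hW y w)) (sq_nonneg _)
  have key := kick_gen (ν := ν) hA he hc0 hδ hd0 hX hν hy
    (Ψ := on (GS A E e a' (Xn δ0 X d0) (dn δ0 X d0) w ∩
      GS A E e a' (Xn δ0 X d0) (dn δ0 X d0) z ∩ SS A E e B (L + 1)) (tf A E e a z w))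
    (m_on (((measurableSet_GS _ _ _ _).inter (measurableSet_GS _ _ _ _)).inter
      (measurableSet_SS _ _)) (m_tf z w))
    (F := kap A (WV E e v) z y * kap A (WV E e v) y w * ‖Tm A (WV E e v) a z w‖ ^ 2)
    (C := c2 (X + 1) (hq δ0 d0)) hF hc2 ?_
  · have h1 : ENNReal.ofReal (kf A E e a y z w v) = ENNReal.ofReal (mm A (WV E e v) y) *
        ENNReal.ofReal (kap A (WV E e v) z y * kap A (WV E e v) y w *
          ‖Tm A (WV E e v) a z w‖ ^ 2) := by
      rw [← ENNReal.ofReal_mul hm.le]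
      rfl
    rw [h1]
    refine (mul_le_mul_right key _).trans (le_of_eq ?_)
    ring
  · intro u h0 h1
    obtain ⟨j, f1, f2, f3, f4, f5⟩ := T2_pt (a := a) hA hW hX1 hh hh1
      (rat_of_tuned hA he hy.tuned) (rat_of_tuned hA he hz.tuned) (rat_of_tuned hA he hw.tuned)
      h0 h1
    rw [← WV_kick] at f1 f2 f3 f4 f5
    refine ⟨j, ?_⟩
    have hmem : Function.update v y (v y + tq (Gr A (WV E e v) y y) (hq δ0 d0) j u) ∈
        GS A E e a' (Xn δ0 X d0) (dn δ0 X d0) w ∩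
          GS A E e a' (Xn δ0 X d0) (dn δ0 X d0) z ∩ SS A E e B (L + 1) :=
      ⟨⟨Gd_kick hA he (Xn_pos hX hδ hd0) hwy hw f3 f5,
        Gd_kick hA he (Xn_pos hX hδ hd0) hzy hz f2 f4⟩, SS_kick hA he hv y _⟩
    rw [on_mem hmem]
    refine ENNReal.ofReal_le_ofReal ?_
    rw [div_le_iff₀ hc2]
    refine le_trans f1 (le_of_eq ?_)
    rw [tf]
    ring

/-- (ST2), one triple -/
theorem ST2_site [∀ x, IsProbabilityMeasure (ν x)] (hA : A.IsSymm) (he : ∀ x, 0 < e x)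
    {D c0 a' δ0 X d0 : ℝ} (hD0 : 0 ≤ D)
    (hc0 : 0 < c0) (hδ : 0 < δ0) (hd0 : 0 < d0) (hX : 0 ≤ X) {y z w : ι} (hzy : z ≠ y)
    (hwy : w ≠ y) (hD : DensLe D (ν y)) (hν : DensGe c0 (a' + δ0) (ν y)) (B : Finset ι)
    (L : ℝ) :
    ∫⁻ v, on (GS A E e a' X d0 y ∩ GS A E e a' X d0 z ∩ GS A E e a' X d0 w ∩ SS A E e B L)
        (kf A E e a y z w) v ∂(Measure.pi ν) ≤
      ENNReal.ofReal (c2 (X + 1) (hq δ0 d0) / kq c0 δ0 X d0) * (ENNReal.ofReal (Real.pi * D) *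
        ∫⁻ v, ENNReal.ofReal (mm A (WV E e v) y) *
          on (GS A E e a' (Xn δ0 X d0) (dn δ0 X d0) w ∩
            GS A E e a' (Xn δ0 X d0) (dn δ0 X d0) z ∩ SS A E e B (L + 1))
            (tf A E e a z w) v ∂(Measure.pi ν)) := by
  have h1 := Io_resample (μ := ν) (E := E) hA he hD0 hD
    (Ψ := on (GS A E e a' (Xn δ0 X d0) (dn δ0 X d0) w ∩
      GS A E e a' (Xn δ0 X d0) (dn δ0 X d0) z ∩ SS A E e B (L + 1)) (tf A E e a z w))
    (m_on (((measurableSet_GS _ _ _ _).inter (measurableSet_GS _ _ _ _)).inter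
      (measurableSet_SS _ _)) (m_tf z w))
  refine le_trans ?_ (mul_le_mul_right h1 _)
  rw [← lintegral_const_mul' _ _ ENNReal.ofReal_ne_top]
  refine lintegral_mono fun v => ?_
  by_cases hv : v ∈ GS A E e a' X d0 y ∩ GS A E e a' X d0 z ∩ GS A E e a' X d0 w ∩
      SS A E e B L
  · rw [on_mem hv]
    exact T2_site hA he hc0 hδ hd0 hX hzy hwy hν hv.1.1.1 hv.1.1.2 hv.1.2 hv.2
  · rw [on_not hv]
    exact zero_le

/-- (ST2), summed over the kicked sites `y ∈ S ⊆ B` -/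
theorem ST2_sum [∀ x, IsProbabilityMeasure (ν x)] (hA : A.IsSymm) (he : ∀ x, 0 < e x)
    {D c0 a' δ0 X d0 : ℝ} (hD0 : 0 ≤ D)
    (hc0 : 0 < c0) (hδ : 0 < δ0) (hd0 : 0 < d0) (hX : 0 ≤ X) {z w : ι} {S B : Finset ι}
    (hSB : S ⊆ B) (hz : ∀ y ∈ S, y ≠ z ∧ y ≠ w)
    (hD : ∀ y ∈ S, DensLe D (ν y)) (hν : ∀ y ∈ S, DensGe c0 (a' + δ0) (ν y)) (L : ℝ) :
    ∑ y ∈ S, ENNReal.ofReal (e y) *
      ∫⁻ v, on (GS A E e a' X d0 y ∩ GS A E e a' X d0 z ∩ GS A E e a' X d0 w ∩ SS A E e B L)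
        (kf A E e a y z w) v ∂(Measure.pi ν) ≤
      ENNReal.ofReal (c2 (X + 1) (hq δ0 d0) / kq c0 δ0 X d0) * (ENNReal.ofReal (Real.pi * D) *
        (ENNReal.ofReal (L + 1) *
        ∫⁻ v, on (GS A E e a' (Xn δ0 X d0) (dn δ0 X d0) w ∩
            GS A E e a' (Xn δ0 X d0) (dn δ0 X d0) z ∩ SS A E e B (L + 1))
            (tf A E e a z w) v ∂(Measure.pi ν))) := by
  have h1 := sum_mm_le (ν := ν) (E := E) hA he hSB (L := L + 1)
    (Ψ := on (GS A E e a' (Xn δ0 X d0) (dn δ0 X d0) w ∩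
      GS A E e a' (Xn δ0 X d0) (dn δ0 X d0) z ∩ SS A E e B (L + 1)) (tf A E e a z w))
    (m_on (((measurableSet_GS _ _ _ _).inter (measurableSet_GS _ _ _ _)).inter
      (measurableSet_SS _ _)) (m_tf z w))
    (fun v hv => on_not fun h => hv h.2)
  refine le_trans ?_ (mul_le_mul_right (mul_le_mul_right h1 _) _)
  rw [Finset.mul_sum, Finset.mul_sum]
  refine Finset.sum_le_sum fun y hy => ?_
  have h3 := ST2_site (E := E) (a := a) (B := B) (L := L) hA he hD0 hc0 hδ hd0 hX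
    (Ne.symm (hz y hy).1) (Ne.symm (hz y hy).2) (hD y hy) (hν y hy)
  refine (mul_le_mul_right h3 _).trans (le_of_eq ?_)
  ring

end P365Z0.H945
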