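import Vale.Agent.P365.Z0.H945.Six
import Vale.Agent.P365.Z0.Bad
import Vale.Agent.P365.Z0.OneL
import Vale.Agent.P365.Stat.ST2
import Vale.Agent.P365.Stat.ST1T

/-!
# P365 zero-dimensional spectrum, static step (Z3c): (ST1) and (ST2) for a general law

World `WV E e v`, `v` of law `Measure.pi ν`, good sites `P365Z.Gd`, lintegral form.
* `ST1_site`, `ST1_sum` : `κ_zy |Q_zy|²` is controlled by the loss at `z` (good `y`, `z`).
* `pairT` : the same for `|T|²`, summed over all pairs.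
* `ST2_sum` : `m_y κ_zy κ_yw |T_zw|²` is controlled by `κ_zw |T_zw|²`.
-/

set_option linter.all false

namespace P365Z0.H945

open Matrix Complex MeasureTheory P365Z0 P365Z0.H990 P365L P365L.Stat P365T1
open scoped ComplexConjugate ENNReal

variable {ι : Type*} [Fintype ι] [DecidableEq ι] {A : Matrix ι ι ℝ} {E : ℝ} {e : ι → ℝ}
  {ν : ι → Measure ℝ} {a : ι → ℝ}

theorem WV_kick (v : ι → ℝ) (y : ι) (t : ℝ) :
    WV E e (Function.update v y (v y + t)) =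
      Function.update (WV E e v) y (WV E e v y + (t : ℂ)) := by
  funext x
  by_cases hx : x = y
  · subst hx
    simp only [WV, Function.update_self]
    push_cast
    ring
  · simp only [WV, Function.update_of_ne hx]

theorem WV_neg (he : ∀ x, 0 < e x) (v : ι → ℝ) (x : ι) : (WV E e v x).im < 0 := by
  simp only [WV, Complex.sub_im, Complex.ofReal_im, Complex.mul_im, Complex.ofReal_re,
    Complex.I_im, Complex.I_re]
  have := he x
  linarith

theorem inv_Gr (hA : A.IsSymm) (he : ∀ x, 0 < e x) (v : ι → ℝ) (z : ι) :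
    (Gr A (WV E e v) z z)⁻¹ =
      ((v z - P365Z.pc A E e v z : ℝ) : ℂ) - (P365Z.pw A E e v z : ℂ) * Complex.I := by
  have hW := WV_neg (E := E) he v
  rw [Gr_self_eq hA hW, inv_inv]
  apply Complex.ext
  · simp only [WV, P365Z.pc, P365Z.pw, Complex.sub_re, Complex.ofReal_re, Complex.mul_re,
      Complex.I_re, Complex.I_im, Complex.ofReal_im]
    ring
  · simp only [WV, P365Z.pc, P365Z.pw, Complex.sub_im, Complex.ofReal_im, Complex.mul_im,
      Complex.ofReal_re, Complex.I_re, Complex.I_im]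
    ring

theorem mm_eq_pw (hA : A.IsSymm) (he : ∀ x, 0 < e x) (v : ι → ℝ) (z : ι) :
    mm A (WV E e v) z = P365Z.pw A E e v z * ‖Gr A (WV E e v) z z‖ ^ 2 := by
  have hW := WV_neg (E := E) he v
  have hne := Gr_self_ne_zero hA hW z
  have h1 := inv_Gr (E := E) hA he v z
  have h2 := congrArg Complex.im h1
  rw [Complex.inv_im, Complex.normSq_eq_norm_sq] at h2
  simp only [Complex.sub_im, Complex.ofReal_im, Complex.mul_im, Complex.ofReal_re, Complex.I_re,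
    Complex.I_im] at h2
  have hn : 0 < ‖Gr A (WV E e v) z z‖ ^ 2 := by
    have := norm_pos_iff.2 hne
    positivity
  rw [div_eq_iff hn.ne'] at h2
  have h3 : mm A (WV E e v) z = (Gr A (WV E e v) z z).im := rfl
  rw [h3]
  linarith

theorem rat_of_tuned (hA : A.IsSymm) (he : ∀ x, 0 < e x) {v : ι → ℝ} {z : ι} {X : ℝ}
    (h : |v z - P365Z.pc A E e v z| ≤ X * P365Z.pw A E e v z) :
    Rat A (WV E e v) (X + 1) z := by
  have hW := WV_neg (E := E) he v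
  have hne := Gr_self_ne_zero hA hW z
  have hn := norm_pos_iff.2 hne
  have hp := P365Z.pw_pos (E := E) hA he v z
  have h1 : ‖(Gr A (WV E e v) z z)⁻¹‖ ≤ (X + 1) * P365Z.pw A E e v z := by
    rw [inv_Gr hA he]
    refine (norm_sub_le _ _).trans ?_
    rw [norm_mul, Complex.norm_real, Complex.norm_real, Complex.norm_I, mul_one,
      Real.norm_eq_abs, Real.norm_eq_abs, abs_of_pos hp]
    linarith
  rw [norm_inv, inv_le_iff_one_le_mul₀ hn] at h1
  show _ ≤ _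
  rw [mm_eq_pw hA he]
  calc ‖Gr A (WV E e v) z z‖ = ‖Gr A (WV E e v) z z‖ * 1 := (mul_one _).symm
    _ ≤ ‖Gr A (WV E e v) z z‖ * ((X + 1) * P365Z.pw A E e v z * ‖Gr A (WV E e v) z z‖) :=
        mul_le_mul_of_nonneg_left h1 hn.le
    _ = _ := by ring

theorem tuned_of_rat (hA : A.IsSymm) (he : ∀ x, 0 < e x) {v : ι → ℝ} {z : ι} {X : ℝ}
    (h : Rat A (WV E e v) X z) :
    |v z - P365Z.pc A E e v z| ≤ X * P365Z.pw A E e v z := by
  have hW := WV_neg (E := E) he v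
  have hne := Gr_self_ne_zero hA hW z
  have hn := norm_pos_iff.2 hne
  have h1 : |v z - P365Z.pc A E e v z| ≤ ‖(Gr A (WV E e v) z z)⁻¹‖ := by
    have h2 := Complex.abs_re_le_norm (Gr A (WV E e v) z z)⁻¹
    have h3 := congrArg Complex.re (inv_Gr (E := E) hA he v z)
    simp only [Complex.sub_re, Complex.ofReal_re, Complex.mul_re, Complex.I_re, Complex.I_im,
      Complex.ofReal_im, mul_zero, zero_mul, sub_zero] at h3
    rw [h3] at h2
    exact h2
  refine h1.trans ?_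
  have h4 : ‖Gr A (WV E e v) z z‖ ≤ X * mm A (WV E e v) z := h
  rw [mm_eq_pw hA he] at h4
  rw [norm_inv, inv_le_iff_one_le_mul₀ hn]
  have h5 : ‖Gr A (WV E e v) z z‖ * 1 ≤ ‖Gr A (WV E e v) z z‖ *
      (X * P365Z.pw A E e v z * ‖Gr A (WV E e v) z z‖) := by
    rw [mul_one]
    calc ‖Gr A (WV E e v) z z‖ ≤ _ := h4
      _ = _ := by ring
  exact le_of_mul_le_mul_left h5 hn

theorem Gd_kick (hA : A.IsSymm) (he : ∀ x, 0 < e x) {X d0 a' C t : ℝ} (hC : 0 < C)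
    {v : ι → ℝ} {y z : ι} (hzy : z ≠ y) (hG : P365Z.Gd A E e X d0 a' v z)
    (hr : Rat A (WV E e (Function.update v y (v y + t))) C z)
    (hn : ‖Gr A (WV E e v) z z‖ ≤ C *
      ‖Gr A (WV E e (Function.update v y (v y + t))) z z‖) :
    P365Z.Gd A E e C (d0 / C) a' (Function.update v y (v y + t)) z := by
  refine ⟨tuned_of_rat hA he hr, ?_, ?_⟩
  · rw [div_le_iff₀ hC]
    have := hG.big
    linarith
  · rw [Function.update_of_ne hzy]
    exact hG.flat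

/-! ### events and observables -/

/-- good event -/
def GS (A : Matrix ι ι ℝ) (E : ℝ) (e : ι → ℝ) (a' X d : ℝ) (z : ι) : Set (ι → ℝ) :=
  {v | P365Z.Gd A E e X d a' v z}

/-- uncrowded event -/
def SS (A : Matrix ι ι ℝ) (E : ℝ) (e : ι → ℝ) (B : Finset ι) (L : ℝ) : Set (ι → ℝ) :=
  {v | P365Z.SB A e B (WV E e v) ≤ L}

theorem measurableSet_GS (a' X d : ℝ) (z : ι) : MeasurableSet (GS A E e a' X d z) :=
  P365Z.measurableSet_Gd X d a' z

theorem measurableSet_SS (B : Finset ι) (L : ℝ) : MeasurableSet (SS A E e B L) :=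
  measurableSet_le (P365Z.measurable_SB e B) measurable_const

theorem GS_mono (hA : A.IsSymm) (he : ∀ x, 0 < e x) {a' X d X' d' : ℝ} (hX : X ≤ X')
    (hd : d' ≤ d) (z : ι) : GS A E e a' X d z ⊆ GS A E e a' X' d' z := fun v hv =>
  ⟨hv.tuned.trans (mul_le_mul_of_nonneg_right hX (P365Z.pw_pos (E := E) hA he v z).le),
    hd.trans hv.big, hv.flat⟩

theorem SS_mono (hA : A.IsSymm) (he : ∀ x, 0 < e x) {B B' : Finset ι} (hB : B ⊆ B') {L L' : ℝ}
    (hL : L ≤ L') : SS A E e B' L ⊆ SS A E e B L' := by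
  intro v hv
  have h1 : P365Z.SB A e B' (WV E e v) ≤ L := hv
  have h2 : P365Z.SB A e B (WV E e v) ≤ P365Z.SB A e B' (WV E e v) :=
    Finset.sum_le_sum_of_subset_of_nonneg hB fun y _ _ =>
      mul_nonneg (he y).le (mm_pos hA (WV_neg he v) y).le
  exact h2.trans (h1.trans hL)

theorem SS_kick (hA : A.IsSymm) (he : ∀ x, 0 < e x) {B : Finset ι} {L : ℝ} {v : ι → ℝ}
    (hv : v ∈ SS A E e B L) (y : ι) (t : ℝ) :
    Function.update v y t ∈ SS A E e B (L + 1) := by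
  have h := P365Z.SB_shift (E := E) hA he (fun x => (he x).le) (fun x => le_rfl) B v y t
  have h2 := (abs_le.1 h).2
  have h3 : P365Z.SB A e B (WV E e v) ≤ L := hv
  show P365Z.SB A e B (WV E e (Function.update v y t)) ≤ L + 1
  linarith

/-- loss at `z` -/
noncomputable def lf (A : Matrix ι ι ℝ) (E : ℝ) (e a : ι → ℝ) (z : ι) (v : ι → ℝ) : ℝ :=
  mm A (WV E e v) z * muf A (WV E e v) a z ^ 2

/-- `κ_zy |Q_zy|²` -/
noncomputable def qf (A : Matrix ι ι ℝ) (E : ℝ) (e a : ι → ℝ) (z y : ι) (v : ι → ℝ) : ℝ :=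
  kap A (WV E e v) z y * ‖Qm A (WV E e v) a z y‖ ^ 2

/-- `κ_zw |T_zw|²` -/
noncomputable def tf (A : Matrix ι ι ℝ) (E : ℝ) (e a : ι → ℝ) (z w : ι) (v : ι → ℝ) : ℝ :=
  kap A (WV E e v) z w * ‖Tm A (WV E e v) a z w‖ ^ 2

/-- `m_y κ_zy κ_yw |T_zw|²` -/
noncomputable def kf (A : Matrix ι ι ℝ) (E : ℝ) (e a : ι → ℝ) (y z w : ι) (v : ι → ℝ) : ℝ :=
  mm A (WV E e v) y * (kap A (WV E e v) z y * kap A (WV E e v) y w *
    ‖Tm A (WV E e v) a z w‖ ^ 2)

/-- `μ_w² K_zw` -/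
noncomputable def uf (A : Matrix ι ι ℝ) (E : ℝ) (e a : ι → ℝ) (z w : ι) (v : ι → ℝ) : ℝ :=
  muf A (WV E e v) a w ^ 2 * KK A (WV E e v) z w

theorem m_mm (z : ι) : Measurable fun v : ι → ℝ => mm A (WV E e v) z := P365Z.measurable_mmv z

theorem m_muf (z : ι) : Measurable fun v : ι → ℝ => muf A (WV E e v) a z := by
  have h := P365L.Stat.measurable_muf (A := A) (U := fun _ => -E) (g := fun _ => (1 : ℝ))
    (e := e) (a := a) z
  simpa only [P365Z.WV_eq_Wc] using h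

theorem m_KK (z w : ι) : Measurable fun v : ι → ℝ => KK A (WV E e v) z w := by
  have h := P365L.Stat.measurable_KK (A := A) (U := fun _ => -E) (g := fun _ => (1 : ℝ))
    (e := e) z w
  simpa only [P365Z.WV_eq_Wc] using h

theorem m_kap (z w : ι) : Measurable fun v : ι → ℝ => kap A (WV E e v) z w := by
  unfold kap
  exact (m_KK z w).div (((m_mm z).mul (m_mm w)).add (m_KK z w))

theorem m_Tm (z w : ι) : Measurable fun v : ι → ℝ => Tm A (WV E e v) a z w := by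
  have h := P365L.Stat.measurable_Tm (A := A) (U := fun _ => -E) (g := fun _ => (1 : ℝ))
    (e := e) (a := a) z w
  simpa only [P365Z.WV_eq_Wc] using h

theorem m_Qm (z w : ι) : Measurable fun v : ι → ℝ => Qm A (WV E e v) a z w := by
  have h := P365L.Stat.measurable_Qm (A := A) (U := fun _ => -E) (g := fun _ => (1 : ℝ))
    (e := e) (a := a) z w
  simpa only [P365Z.WV_eq_Wc] using h

theorem m_lf (z : ι) : Measurable (lf A E e a z) := (m_mm z).mul ((m_muf z).pow_const 2)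

theorem m_qf (z y : ι) : Measurable (qf A E e a z y) :=
  (m_kap z y).mul ((m_Qm z y).norm.pow_const 2)

theorem m_tf (z y : ι) : Measurable (tf A E e a z y) :=
  (m_kap z y).mul ((m_Tm z y).norm.pow_const 2)

theorem m_kf (y z w : ι) : Measurable (kf A E e a y z w) :=
  (m_mm y).mul (((m_kap z y).mul (m_kap y w)).mul ((m_Tm z w).norm.pow_const 2))

theorem m_uf (z w : ι) : Measurable (uf A E e a z w) := ((m_muf w).pow_const 2).mul (m_KK z w)

theorem lf_nonneg (hA : A.IsSymm) (he : ∀ x, 0 < e x) (z : ι) (v : ι → ℝ) :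
    0 ≤ lf A E e a z v := mul_nonneg (mm_pos hA (WV_neg he v) z).le (sq_nonneg _)

theorem qf_nonneg (hA : A.IsSymm) (he : ∀ x, 0 < e x) (z y : ι) (v : ι → ℝ) :
    0 ≤ qf A E e a z y v := mul_nonneg (kap_nonneg hA (WV_neg he v) z y) (sq_nonneg _)

theorem tf_nonneg (hA : A.IsSymm) (he : ∀ x, 0 < e x) (z y : ι) (v : ι → ℝ) :
    0 ≤ tf A E e a z y v := mul_nonneg (kap_nonneg hA (WV_neg he v) z y) (sq_nonneg _)

theorem kf_nonneg (hA : A.IsSymm) (he : ∀ x, 0 < e x) (y z w : ι) (v : ι → ℝ) :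
    0 ≤ kf A E e a y z w v :=
  mul_nonneg (mm_pos hA (WV_neg he v) y).le (mul_nonneg (mul_nonneg
    (kap_nonneg hA (WV_neg he v) z y) (kap_nonneg hA (WV_neg he v) y w)) (sq_nonneg _))

theorem uf_nonneg (z w : ι) (v : ι → ℝ) : 0 ≤ uf A E e a z w v :=
  mul_nonneg (sq_nonneg _) (KK_nonneg _ _)

/-- indicator of `ofReal` -/
noncomputable def on (S : Set (ι → ℝ)) (f : (ι → ℝ) → ℝ) (v : ι → ℝ) : ℝ≥0∞ :=
  S.indicator (fun v => ENNReal.ofReal (f v)) v

theorem on_mem {S : Set (ι → ℝ)} {f : (ι → ℝ) → ℝ} {v : ι → ℝ} (h : v ∈ S) :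
    on S f v = ENNReal.ofReal (f v) := Set.indicator_of_mem h _

theorem on_not {S : Set (ι → ℝ)} {f : (ι → ℝ) → ℝ} {v : ι → ℝ} (h : v ∉ S) :
    on S f v = 0 := Set.indicator_of_notMem h _

theorem on_mono {S S' : Set (ι → ℝ)} (h : S ⊆ S') {f f' : (ι → ℝ) → ℝ} (hf : ∀ v ∈ S, f v ≤ f' v)
    (v : ι → ℝ) : on S f v ≤ on S' f' v := by
  by_cases hv : v ∈ S
  · rw [on_mem hv, on_mem (h hv)]
    exact ENNReal.ofReal_le_ofReal (hf v hv)
  · rw [on_not hv]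
    exact zero_le

theorem m_on {S : Set (ι → ℝ)} (hS : MeasurableSet S) {f : (ι → ℝ) → ℝ} (hf : Measurable f) :
    Measurable (on S f) := hf.ennreal_ofReal.indicator hS

/-! ### one kick -/

/-- spacing of the six points -/
noncomputable def hq (δ0 d0 : ℝ) : ℝ := min 1 (δ0 * d0) / 6

theorem hq_pos {δ0 d0 : ℝ} (hδ : 0 < δ0) (hd : 0 < d0) : 0 < hq δ0 d0 := by
  have : 0 < min 1 (δ0 * d0) := lt_min one_pos (by positivity)
  unfold hq
  positivity

theorem hq_six {δ0 d0 : ℝ} : 6 * hq δ0 d0 ≤ 1 := by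
  have := min_le_left (1 : ℝ) (δ0 * d0)
  unfold hq
  linarith

theorem hq_six' {δ0 d0 : ℝ} : 6 * hq δ0 d0 ≤ δ0 * d0 := by
  have := min_le_right (1 : ℝ) (δ0 * d0)
  unfold hq
  linarith

/-- new ratio -/
noncomputable def Xn (δ0 X d0 : ℝ) : ℝ := cr (X + 1) (hq δ0 d0)

theorem Xn_ge {δ0 X d0 : ℝ} (hX : 0 ≤ X) (hδ : 0 < δ0) (hd : 0 < d0) : X + 1 ≤ Xn δ0 X d0 := by
  have h0 := hq_pos hδ hd
  have h1 := hq_six (δ0 := δ0) (d0 := d0)
  have h2 := ck_ge_one (K := X + 1 + 1) (by linarith) h0 (by linarith)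
  unfold Xn cr
  nlinarith

theorem Xn_pos {δ0 X d0 : ℝ} (hX : 0 ≤ X) (hδ : 0 < δ0) (hd : 0 < d0) : 0 < Xn δ0 X d0 := by
  have := Xn_ge hX hδ hd
  linarith

/-- new lower bound for the entry -/
noncomputable def dn (δ0 X d0 : ℝ) : ℝ := d0 / Xn δ0 X d0

/-- constant of the lower bound of `Io` -/
noncomputable def kq (c0 δ0 X d0 : ℝ) : ℝ :=
  c0 * hq δ0 d0 / (2 * (1 + (X + 1 + 1) ^ 2))

theorem kq_pos {c0 δ0 X d0 : ℝ} (hc : 0 < c0) (hδ : 0 < δ0) (hd : 0 < d0) :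
    0 < kq c0 δ0 X d0 := by
  have := hq_pos hδ hd
  unfold kq
  positivity

/-- general one-kick lemma -/
theorem kick_gen (hA : A.IsSymm) (he : ∀ x, 0 < e x) {c0 a' δ0 X d0 : ℝ}
    (hc0 : 0 < c0) (hδ : 0 < δ0) (hd0 : 0 < d0) (hX : 0 ≤ X) {y : ι}
    (hν : DensGe c0 (a' + δ0) (ν y)) {v : ι → ℝ} (hy : P365Z.Gd A E e X d0 a' v y)
    {Ψ : (ι → ℝ) → ℝ≥0∞} (hΨm : Measurable Ψ) {F C : ℝ} (hF : 0 ≤ F) (hC : 0 < C)
    (hΨ : ∀ u, 0 ≤ u → u ≤ hq δ0 d0 / 2 → ∃ j : Fin 6, ENNReal.ofReal (F / C) ≤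
      Ψ (Function.update v y (v y + tq (Gr A (WV E e v) y y) (hq δ0 d0) j u))) :
    ENNReal.ofReal F ≤ ENNReal.ofReal (C / kq c0 δ0 X d0) * Io ν A E e y Ψ v := by
  have hk := kq_pos (X := X) hc0 hδ hd0
  have h1 := Io_ge' (μ := ν) (n := 6) hA he hc0.le hν hy.flat hd0 hy.big
    (rat_of_tuned hA he hy.tuned) (hq_pos hδ hd0) (by exact_mod_cast hq_six')
    (by exact_mod_cast hq_six (δ0 := δ0) (d0 := d0)) hΨm (fun u hu => hΨ u hu.1 hu.2)
  calc ENNReal.ofReal F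
      = ENNReal.ofReal (C / kq c0 δ0 X d0) *
          (ENNReal.ofReal (kq c0 δ0 X d0) * ENNReal.ofReal (F / C)) := by
        rw [← ENNReal.ofReal_mul hk.le, ← ENNReal.ofReal_mul (by positivity)]
        congr 1
        field_simp
    _ ≤ _ := by
        gcongr
        exact h1

/-- (T1) at a good pair -/
theorem T1_site (hA : A.IsSymm) (he : ∀ x, 0 < e x) {c0 a' δ0 X d0 : ℝ}
    (hc0 : 0 < c0) (hδ : 0 < δ0) (hd0 : 0 < d0) (hX : 0 ≤ X) {y z : ι} (hzy : z ≠ y)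
    (hν : DensGe c0 (a' + δ0) (ν y)) {v : ι → ℝ} (hy : P365Z.Gd A E e X d0 a' v y)
    (hz : P365Z.Gd A E e X d0 a' v z) {B : Finset ι} {L : ℝ} (hv : v ∈ SS A E e B L) :
    ENNReal.ofReal (qf A E e a z y v) ≤
      ENNReal.ofReal (c1 (X + 1) (hq δ0 d0) / kq c0 δ0 X d0) *
        (ENNReal.ofReal (mm A (WV E e v) y) * Io ν A E e y
          (on (GS A E e a' (Xn δ0 X d0) (dn δ0 X d0) z ∩ SS A E e B (L + 1))
            (lf A E e a z)) v) := by
  have hh := hq_pos hδ hd0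
  have hh1 := hq_six (δ0 := δ0) (d0 := d0)
  have hW := WV_neg (E := E) he v
  have hm := mm_pos hA hW y
  have hX1 : 1 ≤ X + 1 := by linarith
  have hc1 : 0 < c1 (X + 1) (hq δ0 d0) := by
    have := ck_ge_one (K := X + 1 + 1) (by linarith) hh (by linarith)
    unfold c1
    positivity
  have hk := kq_pos (X := X) hc0 hδ hd0
  have key := kick_gen (ν := ν) hA he hc0 hδ hd0 hX hν hy
    (Ψ := on (GS A E e a' (Xn δ0 X d0) (dn δ0 X d0) z ∩ SS A E e B (L + 1)) (lf A E e a z))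
    (m_on ((measurableSet_GS _ _ _ _).inter (measurableSet_SS _ _)) (m_lf z))
    (F := qf A E e a z y v) (C := c1 (X + 1) (hq δ0 d0) * mm A (WV E e v) y)
    (qf_nonneg hA he z y v) (by positivity) ?_
  · refine key.trans (le_of_eq ?_)
    rw [← mul_assoc, ← ENNReal.ofReal_mul (by positivity)]
    congr 2
    ring
  · intro u h0 h1
    obtain ⟨j, f1, f2, f3⟩ := T1_pt (a := a) hA hW hX1 hh hh1 (rat_of_tuned hA he hy.tuned)
      (rat_of_tuned hA he hz.tuned) h0 h1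
    rw [← WV_kick] at f1 f2 f3
    refine ⟨j, ?_⟩
    have hmem : Function.update v y (v y + tq (Gr A (WV E e v) y y) (hq δ0 d0) j u) ∈
        GS A E e a' (Xn δ0 X d0) (dn δ0 X d0) z ∩ SS A E e B (L + 1) :=
      ⟨Gd_kick hA he (Xn_pos hX hδ hd0) hzy hz f2 f3, SS_kick hA he hv y _⟩
    rw [on_mem hmem]
    refine ENNReal.ofReal_le_ofReal ?_
    rw [div_le_iff₀ (by positivity)]
    refine le_trans f1 (le_of_eq ?_)
    rw [lf]
    ring

/-- (ST1), one pair -/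
theorem ST1_site [∀ x, IsProbabilityMeasure (ν x)] (hA : A.IsSymm) (he : ∀ x, 0 < e x)
    {D c0 a' δ0 X d0 : ℝ}
    (hD0 : 0 ≤ D) (hc0 : 0 < c0) (hδ : 0 < δ0) (hd0 : 0 < d0) (hX : 0 ≤ X) {y z : ι}
    (hzy : z ≠ y) (hD : DensLe D (ν y)) (hν : DensGe c0 (a' + δ0) (ν y)) (B : Finset ι) (L : ℝ) :
    ∫⁻ v, on (GS A E e a' X d0 y ∩ GS A E e a' X d0 z ∩ SS A E e B L) (qf A E e a z y) v
        ∂(Measure.pi ν) ≤
      ENNReal.ofReal (c1 (X + 1) (hq δ0 d0) / kq c0 δ0 X d0) * (ENNReal.ofReal (Real.pi * D) *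
        ∫⁻ v, ENNReal.ofReal (mm A (WV E e v) y) *
          on (GS A E e a' (Xn δ0 X d0) (dn δ0 X d0) z ∩ SS A E e B (L + 1))
            (lf A E e a z) v ∂(Measure.pi ν)) := by
  have h1 := Io_resample (μ := ν) (E := E) hA he hD0 hD
    (Ψ := on (GS A E e a' (Xn δ0 X d0) (dn δ0 X d0) z ∩ SS A E e B (L + 1)) (lf A E e a z))
    (m_on ((measurableSet_GS _ _ _ _).inter (measurableSet_SS _ _)) (m_lf z))
  refine le_trans ?_ (mul_le_mul_right h1 _)
  rw [← lintegral_const_mul' _ _ ENNReal.ofReal_ne_top]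
  refine lintegral_mono fun v => ?_
  by_cases hv : v ∈ GS A E e a' X d0 y ∩ GS A E e a' X d0 z ∩ SS A E e B L
  · rw [on_mem hv]
    exact T1_site hA he hc0 hδ hd0 hX hzy hν hv.1.1 hv.1.2 hv.2
  · rw [on_not hv]
    exact zero_le

/-- sum over the kicked sites -/
theorem sum_mm_le (hA : A.IsSymm) (he : ∀ x, 0 < e x) {S B : Finset ι} (hSB : S ⊆ B) {L : ℝ}
    {Ψ : (ι → ℝ) → ℝ≥0∞} (hΨ : Measurable Ψ)
    (hs : ∀ v, v ∉ SS A E e B L → Ψ v = 0) :
    ∑ y ∈ S, ENNReal.ofReal (e y) *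
      ∫⁻ v, ENNReal.ofReal (mm A (WV E e v) y) * Ψ v ∂(Measure.pi ν) ≤
      ENNReal.ofReal L * ∫⁻ v, Ψ v ∂(Measure.pi ν) := by
  have h1 : ∀ y, ENNReal.ofReal (e y) *
      ∫⁻ v, ENNReal.ofReal (mm A (WV E e v) y) * Ψ v ∂(Measure.pi ν) =
      ∫⁻ v, ENNReal.ofReal (e y * mm A (WV E e v) y) * Ψ v ∂(Measure.pi ν) := by
    intro y
    rw [← lintegral_const_mul' _ _ ENNReal.ofReal_ne_top]
    refine lintegral_congr fun v => ?_
    rw [ENNReal.ofReal_mul (he y).le, mul_assoc]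
  simp_rw [h1]
  rw [← lintegral_finsetSum S (f := fun y v => ENNReal.ofReal (e y * mm A (WV E e v) y) * Ψ v)
    fun y _ => (((m_mm y).const_mul _).ennreal_ofReal).mul hΨ,
    ← lintegral_const_mul' _ _ ENNReal.ofReal_ne_top]
  refine lintegral_mono fun v => ?_
  show ∑ y ∈ S, ENNReal.ofReal (e y * mm A (WV E e v) y) * Ψ v ≤ _
  rw [← Finset.sum_mul]
  by_cases hv : v ∈ SS A E e B L
  · refine mul_le_mul_left ?_ _
    rw [← ENNReal.ofReal_sum_of_nonneg fun y _ =>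
      mul_nonneg (he y).le (mm_pos hA (WV_neg he v) y).le]
    exact ENNReal.ofReal_le_ofReal (SS_mono hA he hSB le_rfl hv)
  · rw [hs v hv, mul_zero]
    exact zero_le

/-- (ST1), summed over the kicked sites `y ∈ S ⊆ B` -/
theorem ST1_sum [∀ x, IsProbabilityMeasure (ν x)] (hA : A.IsSymm) (he : ∀ x, 0 < e x)
    {D c0 a' δ0 X d0 : ℝ}
    (hD0 : 0 ≤ D) (hc0 : 0 < c0) (hδ : 0 < δ0) (hd0 : 0 < d0) (hX : 0 ≤ X) {z : ι}
    {S B : Finset ι}
    (hSB : S ⊆ B) (hz : z ∉ S)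
    (hD : ∀ y ∈ S, DensLe D (ν y)) (hν : ∀ y ∈ S, DensGe c0 (a' + δ0) (ν y)) (L : ℝ) :
    ∑ y ∈ S, ENNReal.ofReal (e y) *
      ∫⁻ v, on (GS A E e a' X d0 y ∩ GS A E e a' X d0 z ∩ SS A E e B L) (qf A E e a z y) v
        ∂(Measure.pi ν) ≤
      ENNReal.ofReal (c1 (X + 1) (hq δ0 d0) / kq c0 δ0 X d0) * (ENNReal.ofReal (Real.pi * D) *
        (ENNReal.ofReal (L + 1) *
        ∫⁻ v, on (GS A E e a' (Xn δ0 X d0) (dn δ0 X d0) z) (lf A E e a z) v
          ∂(Measure.pi ν))) := by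
  have h1 := sum_mm_le (ν := ν) (E := E) hA he hSB (L := L + 1)
    (Ψ := on (GS A E e a' (Xn δ0 X d0) (dn δ0 X d0) z ∩ SS A E e B (L + 1)) (lf A E e a z))
    (m_on ((measurableSet_GS _ _ _ _).inter (measurableSet_SS _ _)) (m_lf z))
    (fun v hv => on_not fun h => hv h.2)
  have h2 : ∫⁻ v, on (GS A E e a' (Xn δ0 X d0) (dn δ0 X d0) z ∩ SS A E e B (L + 1))
      (lf A E e a z) v ∂(Measure.pi ν) ≤
      ∫⁻ v, on (GS A E e a' (Xn δ0 X d0) (dn δ0 X d0) z) (lf A E e a z) v ∂(Measure.pi ν) :=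
    lintegral_mono fun v => on_mono Set.inter_subset_left (fun _ _ => le_rfl) v
  refine le_trans ?_ (mul_le_mul_right (mul_le_mul_right
    (h1.trans (mul_le_mul_right h2 _)) _) _)
  rw [Finset.mul_sum, Finset.mul_sum]
  refine Finset.sum_le_sum fun y hy => ?_
  have hzy : z ≠ y := fun h => hz (h ▸ hy)
  have h3 := ST1_site (E := E) (a := a) (B := B) (L := L) hA he hD0 hc0 hδ hd0 hX hzy (hD y hy)
    (hν y hy)
  refine (mul_le_mul_right h3 _).trans (le_of_eq ?_)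
  ring

end P365Z0.H945
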