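import Vale.Agent.P365.Z0.Rat990
import Vale.Agent.P365.Stat.T2a

/-!
# P365 zero-dimensional spectrum, static step (Z3c): six separated real kicks at a site, pointwise

`Rat X x` : `‖G_xx‖ ≤ X Im G_xx`.  Sample points `tq g h j u = bet g (j h + u)`.
* `T1_pt` : one of six kicks at `y` shows `κ_zy |Q_zy|²` in the weighted loss at `z`.
* `T2_pt` : one of six kicks at `y` creates `κ_zw` out of `κ_zy κ_yw` and keeps the ratios.
-/

set_option linter.all false

namespace P365Z0.H945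

open Matrix Complex MeasureTheory P365Z0 P365Z0.H990 P365L P365L.Stat
open scoped ComplexConjugate ENNReal

/-- sample points -/
noncomputable def tq (g : ℂ) (h : ℝ) (j : Fin 6) (u : ℝ) : ℝ :=
  bet g * (((j : ℕ) : ℝ) * h + u)

theorem fin6_le (j : Fin 6) : ((j : ℕ) : ℝ) ≤ 5 := by
  have h : (j : ℕ) ≤ 5 := by have := j.2; omega
  exact_mod_cast h

theorem tq_window {g : ℂ} (hg : 0 < g.im) {X h : ℝ} (hh : 0 < h) (hh1 : 6 * h ≤ 1)
    (hr : ‖g‖ ≤ X * g.im) (j : Fin 6) {u : ℝ} (h0 : 0 ≤ u) (h1 : u ≤ h / 2) :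
    |tq g h j u + (g⁻¹).re| ≤ (X + 1) * bet g := by
  have hb := bet_pos hg
  have hj := fin6_le j
  have hj0 : (0 : ℝ) ≤ ((j : ℕ) : ℝ) := Nat.cast_nonneg _
  have hne : g ≠ 0 := by rintro rfl; simp at hg
  have hn : 0 < ‖g‖ ^ 2 := by positivity
  have e1 : |tq g h j u| ≤ bet g := by
    rw [tq, abs_mul, abs_of_pos hb]
    have : |((j : ℕ) : ℝ) * h + u| ≤ 1 := by
      rw [abs_of_nonneg (by positivity)]
      nlinarith
    calc bet g * |((j : ℕ) : ℝ) * h + u| ≤ bet g * 1 := mul_le_mul_of_nonneg_left this hb.le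
      _ = bet g := mul_one _
  have e2 : |(g⁻¹).re| ≤ X * bet g := by
    rw [Complex.inv_re, abs_div, Complex.normSq_eq_norm_sq, abs_of_pos hn, div_le_iff₀ hn]
    calc |g.re| ≤ ‖g‖ := Complex.abs_re_le_norm g
      _ ≤ X * g.im := hr
      _ = X * bet g * ‖g‖ ^ 2 := by rw [im_eq_bet hg]; ring
  calc |tq g h j u + (g⁻¹).re| ≤ |tq g h j u| + |(g⁻¹).re| := abs_add_le _ _
    _ ≤ (X + 1) * bet g := by linarith

theorem tq_sep {g : ℂ} (hg : 0 < g.im) {h : ℝ} (hh : 0 < h) {j k : Fin 6} (hjk : j ≠ k)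
    (u : ℝ) : h * bet g ≤ |tq g h j u - tq g h k u| := by
  have hb := bet_pos hg
  have e : tq g h j u - tq g h k u = (h * bet g) * (((j : ℕ) : ℝ) - ((k : ℕ) : ℝ)) := by
    rw [tq, tq]; ring
  rw [e, abs_mul, abs_of_pos (by positivity)]
  have h1 : (1 : ℝ) ≤ |(((j : ℕ) : ℝ) - ((k : ℕ) : ℝ))| := by
    have h1 : ((j : ℕ) : ℤ) - ((k : ℕ) : ℤ) ≠ 0 := by
      intro h2
      apply hjk
      apply Fin.ext
      omega
    have h3 : (1 : ℤ) ≤ |((j : ℕ) : ℤ) - ((k : ℕ) : ℤ)| := Int.one_le_abs h1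
    have h4 : ((1 : ℤ) : ℝ) ≤ ((|((j : ℕ) : ℤ) - ((k : ℕ) : ℤ)| : ℤ) : ℝ) := by exact_mod_cast h3
    push_cast at h4
    exact h4
  calc h * bet g = h * bet g * 1 := (mul_one _).symm
    _ ≤ _ := mul_le_mul_of_nonneg_left h1 (by positivity)

theorem ck_ge_one {K h : ℝ} (hK : 1 ≤ K) (hh : 0 < h) (hh1 : h ≤ 1) : 1 ≤ ck K h := by
  rw [ck, le_div_iff₀ (by positivity)]
  have h1 : 1 ≤ K ^ 4 := one_le_pow₀ hK
  have h2 : h ^ 2 ≤ 1 := pow_le_one₀ hh.le hh1
  linarith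

/-- ratio constant -/
noncomputable def cr (X h : ℝ) : ℝ := (X + 2) * ck (X + 1) h

theorem cr_ge_one {X h : ℝ} (hX : 1 ≤ X) (hh : 0 < h) (hh1 : h ≤ 1) : 1 ≤ cr X h := by
  have h1 := ck_ge_one (show 1 ≤ X + 1 by linarith) hh hh1
  unfold cr
  nlinarith

/-- combination of five exceptional sample points among six -/
theorem six_comb (P Q S R : Fin 6 → Prop) (hP : ∀ a b, P a → P b → a = b)
    (hQ : ∀ a b, Q a → Q b → a = b) (hS : ∀ a b, S a → S b → a = b)
    (hR : ∀ a b c, a ≠ b → a ≠ c → b ≠ c → R a → R b → R c → False) :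
    ∃ j, ¬P j ∧ ¬Q j ∧ ¬S j ∧ ¬R j := by
  classical
  have c1 : (Finset.univ.filter P).card ≤ 1 := Finset.card_le_one.2 fun a ha b hb =>
    hP a b (Finset.mem_filter.1 ha).2 (Finset.mem_filter.1 hb).2
  have c2 : (Finset.univ.filter Q).card ≤ 1 := Finset.card_le_one.2 fun a ha b hb =>
    hQ a b (Finset.mem_filter.1 ha).2 (Finset.mem_filter.1 hb).2
  have c4 : (Finset.univ.filter S).card ≤ 1 := Finset.card_le_one.2 fun a ha b hb =>
    hS a b (Finset.mem_filter.1 ha).2 (Finset.mem_filter.1 hb).2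
  have c3 : (Finset.univ.filter R).card ≤ 2 := by
    by_contra hc
    push Not at hc
    obtain ⟨a, ha, b, hb, c, hcc, hab, hac, hbc⟩ := Finset.two_lt_card.1 hc
    exact hR a b c hab hac hbc (Finset.mem_filter.1 ha).2 (Finset.mem_filter.1 hb).2
      (Finset.mem_filter.1 hcc).2
  by_contra hc
  push Not at hc
  have h1 : (Finset.univ : Finset (Fin 6)) ⊆
      Finset.univ.filter P ∪ (Finset.univ.filter Q ∪ (Finset.univ.filter S ∪
        Finset.univ.filter R)) := by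
    intro j _
    by_cases h1 : P j
    · exact Finset.mem_union_left _ (Finset.mem_filter.2 ⟨Finset.mem_univ _, h1⟩)
    · by_cases h2 : Q j
      · exact Finset.mem_union_right _ (Finset.mem_union_left _
          (Finset.mem_filter.2 ⟨Finset.mem_univ _, h2⟩))
      · by_cases h3 : S j
        · exact Finset.mem_union_right _ (Finset.mem_union_right _ (Finset.mem_union_left _
            (Finset.mem_filter.2 ⟨Finset.mem_univ _, h3⟩)))
        · exact Finset.mem_union_right _ (Finset.mem_union_right _ (Finset.mem_union_right _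
            (Finset.mem_filter.2 ⟨Finset.mem_univ _, hc j h1 h2 h3⟩)))
  have h2 := Finset.card_le_card h1
  have h3 := Finset.card_union_le (Finset.univ.filter P)
    (Finset.univ.filter Q ∪ (Finset.univ.filter S ∪ Finset.univ.filter R))
  have h4 := Finset.card_union_le (Finset.univ.filter Q)
    (Finset.univ.filter S ∪ Finset.univ.filter R)
  have h5 := Finset.card_union_le (Finset.univ.filter S) (Finset.univ.filter R)
  rw [Finset.card_univ, Fintype.card_fin] at h2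
  omega

section pts

variable {g : ℂ} {X h u : ℝ}

/-- amplitude: at most one bad point -/
theorem amp_bad6 (hg : 0 < g.im) (hX : 1 ≤ X) (hh : 0 < h) (hh1 : 6 * h ≤ 1)
    (hr : ‖g‖ ≤ X * g.im) (h0 : 0 ≤ u) (h1 : u ≤ h / 2) {F Y : ℂ} {j k : Fin 6}
    (hj : ck (X + 1) h * ‖F - th g (tq g h j u) * Y‖ < ‖Y‖ / g.im)
    (hk : ck (X + 1) h * ‖F - th g (tq g h k u) * Y‖ < ‖Y‖ / g.im) : j = k := by
  by_contra hjk
  have hq := (two_pt hg (K := X + 1) (by linarith) hh (by linarith) (X := F) (Y := Y)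
    (M := max ‖F - th g (tq g h j u) * Y‖ ‖F - th g (tq g h k u) * Y‖)
    (tq_window hg hh hh1 hr j h0 h1) (tq_window hg hh hh1 hr k h0 h1) (tq_sep hg hh hjk u)
    (le_max_left _ _) (le_max_right _ _)).2
  rcases max_choice ‖F - th g (tq g h j u) * Y‖ ‖F - th g (tq g h k u) * Y‖ with h2 | h2 <;>
    rw [h2] at hq <;> linarith

/-- ratio: at most one bad point -/
theorem rat_bad6 (hg : 0 < g.im) (hX : 1 ≤ X) (hh : 0 < h) (hh1 : 6 * h ≤ 1)
    (hr : ‖g‖ ≤ X * g.im) (h0 : 0 ≤ u) (h1 : u ≤ h / 2) {F Y : ℂ}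
    (hpos : ∀ t : ℝ, 0 ≤ (F - th g t * Y).im) (hF : ‖F‖ ≤ X * F.im) {j k : Fin 6}
    (hj : cr X h * (F - th g (tq g h j u) * Y).im < max ‖F‖ ‖F - th g (tq g h j u) * Y‖)
    (hk : cr X h * (F - th g (tq g h k u) * Y).im < max ‖F‖ ‖F - th g (tq g h k u) * Y‖) :
    j = k := by
  by_contra hjk
  have key := fun t : ℝ => rat_pt hg (K := X + 1) (by linarith) hh (by linarith) hpos hX hF
    (M := max (F - th g (tq g h j u) * Y).im (F - th g (tq g h k u) * Y).im)
    (tq_window hg hh hh1 hr j h0 h1) (tq_window hg hh hh1 hr k h0 h1) (tq_sep hg hh hjk u)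
    (le_max_left _ _) (le_max_right _ _) t
  have e0 := key 0
  have ej := key (tq g h j u)
  have ek := key (tq g h k u)
  have hth : th g ((0 : ℝ) : ℂ) = 0 := by rw [th]; simp
  rw [hth, zero_mul, sub_zero] at e0
  change _ ≤ cr X h * _ at e0
  change _ ≤ cr X h * _ at ej
  change _ ≤ cr X h * _ at ek
  rcases max_choice (F - th g (tq g h j u) * Y).im (F - th g (tq g h k u) * Y).im with h2 | h2
  · rw [h2] at e0 ej
    exact absurd hj (not_lt.2 (max_le e0 ej))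
  · rw [h2] at e0 ek
    exact absurd hk (not_lt.2 (max_le e0 ek))

/-- value of `T`: at most two bad points -/
theorem val_bad6 (hg : 0 < g.im) (hX : 1 ≤ X) (hh : 0 < h) (hh1 : 6 * h ≤ 1)
    (hr : ‖g‖ ≤ X * g.im) (h0 : 0 ≤ u) (h1 : u ≤ h / 2) {T Y Z : ℂ} {i j k : Fin 6}
    (hij : i ≠ j) (hik : i ≠ k) (hjk : j ≠ k)
    (hi : ck (X + 1) h * ‖T - th g (tq g h i u) * Y - conj (th g (tq g h i u)) * Z‖ < ‖T‖)
    (hj : ck (X + 1) h * ‖T - th g (tq g h j u) * Y - conj (th g (tq g h j u)) * Z‖ < ‖T‖)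
    (hk : ck (X + 1) h * ‖T - th g (tq g h k u) * Y - conj (th g (tq g h k u)) * Z‖ < ‖T‖) :
    False := by
  set a := ‖T - th g (tq g h i u) * Y - conj (th g (tq g h i u)) * Z‖ with ha
  set b := ‖T - th g (tq g h j u) * Y - conj (th g (tq g h j u)) * Z‖ with hb
  set c := ‖T - th g (tq g h k u) * Y - conj (th g (tq g h k u)) * Z‖ with hc
  have hq := three_val hg (K := X + 1) (by linarith) hh (by linarith) (T := T) (X := Y) (Y := Z)
    (M := max a (max b c))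
    (tq_window hg hh hh1 hr i h0 h1) (tq_window hg hh hh1 hr j h0 h1)
    (tq_window hg hh hh1 hr k h0 h1) (tq_sep hg hh hij u)
    (tq_sep hg hh hik u) (tq_sep hg hh hjk u) (le_max_left _ _)
    ((le_max_left _ _).trans (le_max_right _ _)) ((le_max_right _ _).trans (le_max_right _ _))
  rcases max_choice a (max b c) with h2 | h2
  · rw [h2] at hq; linarith
  · rw [h2] at hq
    rcases max_choice b c with h3 | h3 <;> rw [h3] at hq <;> linarith

/-- amplitude of the loss: at most two bad points -/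
theorem loss_bad6 (hg : 0 < g.im) (hX : 1 ≤ X) (hh : 0 < h) (hh1 : 6 * h ≤ 1)
    (hr : ‖g‖ ≤ X * g.im) (h0 : 0 ≤ u) (h1 : u ≤ h / 2) {c0 : ℝ} {q : ℂ} {i j k : Fin 6}
    (hij : i ≠ j) (hik : i ≠ k) (hjk : j ≠ k)
    (hi : ck (X + 1) h * |c0 - 2 * (th g (tq g h i u) * q).re| < ‖q‖ / g.im)
    (hj : ck (X + 1) h * |c0 - 2 * (th g (tq g h j u) * q).re| < ‖q‖ / g.im)
    (hk : ck (X + 1) h * |c0 - 2 * (th g (tq g h k u) * q).re| < ‖q‖ / g.im) :
    False := by
  set a := |c0 - 2 * (th g (tq g h i u) * q).re| with ha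
  set b := |c0 - 2 * (th g (tq g h j u) * q).re| with hb
  set c := |c0 - 2 * (th g (tq g h k u) * q).re| with hc
  have hq := three_amp hg (K := X + 1) (by linarith) hh (by linarith) (c0 := c0) (q := q)
    (M := max a (max b c))
    (tq_window hg hh hh1 hr i h0 h1) (tq_window hg hh hh1 hr j h0 h1)
    (tq_window hg hh hh1 hr k h0 h1) (tq_sep hg hh hij u)
    (tq_sep hg hh hik u) (tq_sep hg hh hjk u) (le_max_left _ _)
    ((le_max_left _ _).trans (le_max_right _ _)) ((le_max_right _ _).trans (le_max_right _ _))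
  rcases max_choice a (max b c) with h2 | h2
  · rw [h2] at hq; linarith
  · rw [h2] at hq
    rcases max_choice b c with h3 | h3 <;> rw [h3] at hq <;> linarith

/-- one of the six points is good for everything in (T2) -/
theorem six_good2 (hg : 0 < g.im) (hX : 1 ≤ X) (hh : 0 < h) (hh1 : 6 * h ≤ 1)
    (hr : ‖g‖ ≤ X * g.im) (h0 : 0 ≤ u) (h1 : u ≤ h / 2) (F1 Y1 T Y Z : ℂ) {F2 Y2 F3 Y3 : ℂ}
    (hpos2 : ∀ t : ℝ, 0 ≤ (F2 - th g t * Y2).im) (hF2 : ‖F2‖ ≤ X * F2.im)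
    (hpos3 : ∀ t : ℝ, 0 ≤ (F3 - th g t * Y3).im) (hF3 : ‖F3‖ ≤ X * F3.im) :
    ∃ j : Fin 6,
      ‖Y1‖ / g.im ≤ ck (X + 1) h * ‖F1 - th g (tq g h j u) * Y1‖ ∧
      max ‖F2‖ ‖F2 - th g (tq g h j u) * Y2‖ ≤ cr X h * (F2 - th g (tq g h j u) * Y2).im ∧
      max ‖F3‖ ‖F3 - th g (tq g h j u) * Y3‖ ≤ cr X h * (F3 - th g (tq g h j u) * Y3).im ∧
      ‖T‖ ≤ ck (X + 1) h * ‖T - th g (tq g h j u) * Y - conj (th g (tq g h j u)) * Z‖ := by
  obtain ⟨j, a1, a2, a3, a4⟩ := six_comb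
    (fun j => ck (X + 1) h * ‖F1 - th g (tq g h j u) * Y1‖ < ‖Y1‖ / g.im)
    (fun j => cr X h * (F2 - th g (tq g h j u) * Y2).im <
      max ‖F2‖ ‖F2 - th g (tq g h j u) * Y2‖)
    (fun j => cr X h * (F3 - th g (tq g h j u) * Y3).im <
      max ‖F3‖ ‖F3 - th g (tq g h j u) * Y3‖)
    (fun j => ck (X + 1) h * ‖T - th g (tq g h j u) * Y - conj (th g (tq g h j u)) * Z‖ < ‖T‖)
    (fun a b ha hb => amp_bad6 hg hX hh hh1 hr h0 h1 ha hb)
    (fun a b ha hb => rat_bad6 hg hX hh hh1 hr h0 h1 hpos2 hF2 ha hb)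
    (fun a b ha hb => rat_bad6 hg hX hh hh1 hr h0 h1 hpos3 hF3 ha hb)
    (fun a b c hab hac hbc ha hb hc => val_bad6 hg hX hh hh1 hr h0 h1 hab hac hbc ha hb hc)
  exact ⟨j, not_lt.1 a1, not_lt.1 a2, not_lt.1 a3, not_lt.1 a4⟩

/-- one of the six points is good for everything in (T1) -/
theorem six_good1 (hg : 0 < g.im) (hX : 1 ≤ X) (hh : 0 < h) (hh1 : 6 * h ≤ 1)
    (hr : ‖g‖ ≤ X * g.im) (h0 : 0 ≤ u) (h1 : u ≤ h / 2) (c0 : ℝ) (q : ℂ) {F Y : ℂ}
    (hpos : ∀ t : ℝ, 0 ≤ (F - th g t * Y).im) (hF : ‖F‖ ≤ X * F.im) :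
    ∃ j : Fin 6,
      max ‖F‖ ‖F - th g (tq g h j u) * Y‖ ≤ cr X h * (F - th g (tq g h j u) * Y).im ∧
      ‖q‖ / g.im ≤ ck (X + 1) h * |c0 - 2 * (th g (tq g h j u) * q).re| := by
  obtain ⟨j, a1, a2, a3, a4⟩ := six_comb
    (fun j => False) (fun j => False)
    (fun j => cr X h * (F - th g (tq g h j u) * Y).im <
      max ‖F‖ ‖F - th g (tq g h j u) * Y‖)
    (fun j => ck (X + 1) h * |c0 - 2 * (th g (tq g h j u) * q).re| < ‖q‖ / g.im)
    (fun a b ha hb => ha.elim) (fun a b ha hb => ha.elim)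
    (fun a b ha hb => rat_bad6 hg hX hh hh1 hr h0 h1 hpos hF ha hb)
    (fun a b c hab hac hbc ha hb hc => loss_bad6 hg hX hh hh1 hr h0 h1 hab hac hbc ha hb hc)
  exact ⟨j, not_lt.1 a3, not_lt.1 a4⟩

end pts

/-! ### matrices -/

variable {ι : Type*} [Fintype ι] [DecidableEq ι]
variable {A : Matrix ι ι ℝ} {W : ι → ℂ} {a : ι → ℝ}

/-- ratio condition at `x` -/
def Rat (A : Matrix ι ι ℝ) (W : ι → ℂ) (X : ℝ) (x : ι) : Prop :=
  ‖Gr A W x x‖ ≤ X * mm A W x

theorem Gr_upd_r (hA : A.IsSymm) (hW : ∀ x, (W x).im < 0) (y : ι) (t : ℝ) (z w : ι) :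
    Gr A (Function.update W y (W y + (t : ℂ))) z w =
      Gr A W z w - th (Gr A W y y) (t : ℂ) * (Gr A W z y * Gr A W y w) := by
  have ht : (W y + (t : ℂ)).im < 0 := by
    rw [Complex.add_im, Complex.ofReal_im, add_zero]
    exact hW y
  rw [Gr_upd hA hW y _ ht z w]
  ring

/-- constant of (T2) -/
noncomputable def c2 (X h : ℝ) : ℝ := 2 * ck (X + 1) h ^ 4

/-- constant of (T1) -/
noncomputable def c1 (X h : ℝ) : ℝ := ck (X + 1) h ^ 2

/-- **(T1), pointwise.** -/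
theorem T1_pt (hA : A.IsSymm) (hW : ∀ x, (W x).im < 0) {X h : ℝ} (hX : 1 ≤ X) (hh : 0 < h)
    (hh1 : 6 * h ≤ 1) {y z : ι} (hy : Rat A W X y) (hz : Rat A W X z) {u : ℝ} (h0 : 0 ≤ u)
    (h1 : u ≤ h / 2) : ∃ j : Fin 6,
      kap A W z y * ‖Qm A W a z y‖ ^ 2 ≤ c1 X h * (mm A W y *
        (mm A (Function.update W y (W y + (tq (Gr A W y y) h j u : ℝ))) z *
          muf A (Function.update W y (W y + (tq (Gr A W y y) h j u : ℝ))) a z ^ 2)) ∧
      Rat A (Function.update W y (W y + (tq (Gr A W y y) h j u : ℝ))) (cr X h) z ∧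
      ‖Gr A W z z‖ ≤ cr X h *
        ‖Gr A (Function.update W y (W y + (tq (Gr A W y y) h j u : ℝ))) z z‖ := by
  have hg : 0 < (Gr A W y y).im := mm_pos hA hW y
  set q : ℂ := Qm A W a z y * Gr A W z y with hq
  obtain ⟨j, e1, e2⟩ := six_good1 hg hX hh hh1 hy h0 h1 (Tm A W a z z).re q
    (F := Gr A W z z) (Y := Gr A W z y * Gr A W y z)
    (fun t => by rw [← Gr_upd_r hA hW y t]; exact (mm_pos hA (upd_neg_real hW y t) z).le) hz
  refine ⟨j, ?_⟩
  set τ : ℝ := tq (Gr A W y y) h j u with hτ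
  set W' := Function.update W y (W y + (τ : ℂ)) with hW'
  have hWn : ∀ x, (W' x).im < 0 := upd_neg_real hW y τ
  rw [← Gr_upd_r hA hW y τ z z, ← hW'] at e1
  have hrat : Rat A W' (cr X h) z := (le_max_right _ _).trans e1
  have hTe : (Tm A W a z z).re - 2 * (th (Gr A W y y) (τ : ℂ) * q).re =
      mm A W' z * muf A W' a z := by
    have k1 := congrArg Complex.re (Tm_upd_real (a := a) hA hW y τ z z)
    rw [← hW', Tm_self hA hWn, Complex.ofReal_re] at k1
    rw [k1]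
    set θ := th (Gr A W y y) (τ : ℂ) with hθ
    rw [Complex.sub_re, Complex.sub_re]
    have k2 : (θ * Qm A W a z y * Gr A W y z).re = (θ * q).re := by
      rw [hq, Gr_symm hA y z, mul_assoc]
    have k3 : (conj θ * conj (Gr A W z y) * conj (Qm A W a z y)).re = (θ * q).re := by
      rw [← map_mul, ← map_mul, Complex.conj_re, hq]
      congr 1
      ring
    rw [k2, k3]
    ring
  rw [hTe] at e2
  have my := mm_pos hA hW y
  have mz := mm_pos hA hW z
  have mz' := mm_pos hA hWn z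
  have gz := mm_upd_le hA hW y τ z
  rw [← hW'] at gz
  have hK := KK_nonneg (A := A) (W := W) z y
  have hcr := cr_ge_one hX hh (show h ≤ 1 by linarith)
  have hck := ck_ge_one (show 1 ≤ X + 1 by linarith) hh (show h ≤ 1 by linarith)
  refine ⟨?_, hrat, (le_max_left _ _).trans (e1.trans (mul_le_mul_of_nonneg_left
      ((le_abs_self _).trans (Complex.abs_im_le_norm _)) (by linarith)))⟩
  set K := KK A W z y with hKd
  set m := mm A W y with hm
  set D := mm A W z * m + K with hD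
  have hDpos : 0 < D := by positivity
  have hgz' : mm A W' z * m ≤ D := by
    calc mm A W' z * m ≤ (mm A W z + K / m) * m := mul_le_mul_of_nonneg_right gz my.le
      _ = D := by rw [hD]; field_simp
  -- the amplitude
  have e3 : K * ‖Qm A W a z y‖ ^ 2 ≤ ck (X + 1) h ^ 2 * (m ^ 2 * (mm A W' z ^ 2 *
      muf A W' a z ^ 2)) := by
    have k1 : (‖q‖ / (Gr A W y y).im) ^ 2 ≤ (ck (X + 1) h * |mm A W' z * muf A W' a z|) ^ 2 :=
      pow_le_pow_left₀ (div_nonneg (norm_nonneg q) hg.le) e2 2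
    have k2 : (‖q‖ / (Gr A W y y).im) ^ 2 = K * ‖Qm A W a z y‖ ^ 2 / m ^ 2 := by
      rw [hq, norm_mul, div_pow, mul_pow, hKd, KK, hm, mm]
      ring
    rw [k2, mul_pow, sq_abs, div_le_iff₀ (by positivity)] at k1
    calc K * ‖Qm A W a z y‖ ^ 2 ≤ ck (X + 1) h ^ 2 * (mm A W' z * muf A W' a z) ^ 2 * m ^ 2 := k1
      _ = _ := by ring
  rw [kap, ← hKd, ← hm, ← hD, div_mul_eq_mul_div, div_le_iff₀ hDpos]
  calc K * ‖Qm A W a z y‖ ^ 2
      ≤ ck (X + 1) h ^ 2 * (m ^ 2 * (mm A W' z ^ 2 * muf A W' a z ^ 2)) := e3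
    _ = ck (X + 1) h ^ 2 * (m * (mm A W' z * muf A W' a z ^ 2) * (mm A W' z * m)) := by ring
    _ ≤ ck (X + 1) h ^ 2 * (m * (mm A W' z * muf A W' a z ^ 2) * D) := by
        refine mul_le_mul_of_nonneg_left ?_ (sq_nonneg _)
        exact mul_le_mul_of_nonneg_left hgz' (by positivity)
    _ = c1 X h * (m * (mm A W' z * muf A W' a z ^ 2)) * D := by rw [c1]; ring

/-- **(T2), pointwise.** -/
theorem T2_pt (hA : A.IsSymm) (hW : ∀ x, (W x).im < 0) {X h : ℝ} (hX : 1 ≤ X) (hh : 0 < h)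
    (hh1 : 6 * h ≤ 1) {y z w : ι} (hy : Rat A W X y) (hz : Rat A W X z) (hw : Rat A W X w)
    {u : ℝ} (h0 : 0 ≤ u) (h1 : u ≤ h / 2) : ∃ j : Fin 6,
      kap A W z y * kap A W y w * ‖Tm A W a z w‖ ^ 2 ≤
        c2 X h * (kap A (Function.update W y (W y + (tq (Gr A W y y) h j u : ℝ))) z w *
          ‖Tm A (Function.update W y (W y + (tq (Gr A W y y) h j u : ℝ))) a z w‖ ^ 2) ∧
      Rat A (Function.update W y (W y + (tq (Gr A W y y) h j u : ℝ))) (cr X h) z ∧
      Rat A (Function.update W y (W y + (tq (Gr A W y y) h j u : ℝ))) (cr X h) w ∧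
      ‖Gr A W z z‖ ≤ cr X h *
        ‖Gr A (Function.update W y (W y + (tq (Gr A W y y) h j u : ℝ))) z z‖ ∧
      ‖Gr A W w w‖ ≤ cr X h *
        ‖Gr A (Function.update W y (W y + (tq (Gr A W y y) h j u : ℝ))) w w‖ := by
  have hg : 0 < (Gr A W y y).im := mm_pos hA hW y
  obtain ⟨j, e1, e5, e2, e3⟩ := six_good2 hg hX hh hh1 hy h0 h1
    (Gr A W z w) (Gr A W z y * Gr A W y w) (Tm A W a z w) (Qm A W a z y * Gr A W y w)
    (conj (Gr A W z y) * conj (Qm A W a w y))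
    (F2 := Gr A W z z) (Y2 := Gr A W z y * Gr A W y z)
    (F3 := Gr A W w w) (Y3 := Gr A W w y * Gr A W y w)
    (fun t => by rw [← Gr_upd_r hA hW y t]; exact (mm_pos hA (upd_neg_real hW y t) z).le) hz
    (fun t => by rw [← Gr_upd_r hA hW y t]; exact (mm_pos hA (upd_neg_real hW y t) w).le) hw
  refine ⟨j, ?_⟩
  set τ : ℝ := tq (Gr A W y y) h j u with hτ
  set W' := Function.update W y (W y + (τ : ℂ)) with hW'
  have hWn : ∀ x, (W' x).im < 0 := upd_neg_real hW y τ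
  rw [← Gr_upd_r hA hW y τ z w, ← hW'] at e1
  rw [← Gr_upd_r hA hW y τ z z, ← hW'] at e5
  rw [← Gr_upd_r hA hW y τ w w, ← hW'] at e2
  have hcr := cr_ge_one hX hh (show h ≤ 1 by linarith)
  have hck := ck_ge_one (show 1 ≤ X + 1 by linarith) hh (show h ≤ 1 by linarith)
  have hmw' := mm_pos hA hWn w
  refine ⟨?_, (le_max_right _ _).trans e5, (le_max_right _ _).trans e2,
    (le_max_left _ _).trans (e5.trans (mul_le_mul_of_nonneg_left
      ((le_abs_self _).trans (Complex.abs_im_le_norm _)) (by linarith))),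
    (le_max_left _ _).trans (e2.trans (mul_le_mul_of_nonneg_left
      ((le_abs_self _).trans (Complex.abs_im_le_norm _)) (by linarith)))⟩
  have f3 : Tm A W' a z w = Tm A W a z w - th (Gr A W y y) (τ : ℂ) *
      (Qm A W a z y * Gr A W y w) - conj (th (Gr A W y y) (τ : ℂ)) *
      (conj (Gr A W z y) * conj (Qm A W a w y)) := by
    rw [hW', Tm_upd_real hA hW y τ z w]; ring
  rw [← f3] at e3
  have my := mm_pos hA hW y
  have mz := mm_pos hA hW z
  have mw := mm_pos hA hW w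
  have mz' := mm_pos hA hWn z
  have mw' := mm_pos hA hWn w
  have gz := mm_upd_le hA hW y τ z
  have gw := mm_upd_le hA hW y τ w
  rw [← hW'] at gz gw
  set C := ck (X + 1) h with hC
  set kz := KK A W z y with hkz
  set kw := KK A W w y with hkw
  have kz0 : 0 ≤ kz := KK_nonneg z y
  have kw0 : 0 ≤ kw := KK_nonneg w y
  set m := mm A W y with hm
  set K' := KK A W' z w with hK'
  have K'0 : 0 ≤ K' := KK_nonneg z w
  set D := (mm A W z + kz / m) * (mm A W w + kw / m) with hD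
  have hDpos : 0 < D := by positivity
  have h_mm : mm A W' z * mm A W' w ≤ D := mul_le_mul gz gw mw'.le (by positivity)
  set Y := kz * kw / m ^ 2 with hY
  have hY0 : 0 ≤ Y := by positivity
  have hYD : Y ≤ D := by
    have : Y = (kz / m) * (kw / m) := by rw [hY]; field_simp
    rw [this, hD]
    have a1 : 0 ≤ kz / m := by positivity
    have a2 : 0 ≤ kw / m := by positivity
    nlinarith
  have hK'Y : Y ≤ C ^ 2 * K' := by
    have e4 : (‖Gr A W z y * Gr A W y w‖ / (Gr A W y y).im) ^ 2 ≤ (C * ‖Gr A W' z w‖) ^ 2 :=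
      pow_le_pow_left₀ (by positivity) e1 2
    have e5 : (‖Gr A W z y * Gr A W y w‖ / (Gr A W y y).im) ^ 2 = Y := by
      rw [hY, hkz, hkw, hm, KK, KK, mm, norm_mul, Gr_symm hA y w, div_pow, mul_pow]
    rw [e5, mul_pow] at e4
    rw [hK', KK]
    linarith
  have hkk : kap A W z y * kap A W y w = Y / D := by
    rw [kap, kap, ← hkz, KK_symm hA y w, ← hkw, ← hm, hY, hD]
    have b1 : mm A W z * m + kz ≠ 0 := by positivity
    have b2 : m * mm A W w + kw ≠ 0 := by positivity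
    have b3 : mm A W z + kz / m = (mm A W z * m + kz) / m := by field_simp
    have b4 : mm A W w + kw / m = (m * mm A W w + kw) / m := by field_simp
    rw [b3, b4]
    field_simp
  have hk' : Y / D ≤ 2 * C ^ 2 * kap A W' z w := by
    rw [kap, ← hK']
    have hden : 0 < mm A W' z * mm A W' w + K' := by positivity
    rw [mul_div_assoc', div_le_div_iff₀ hDpos hden]
    have c1 : Y * (mm A W' z * mm A W' w) ≤ C ^ 2 * K' * D :=
      mul_le_mul hK'Y h_mm (by positivity) (by positivity)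
    have c2 : Y * K' ≤ D * K' := mul_le_mul_of_nonneg_right hYD K'0
    have c3 : 1 ≤ C ^ 2 := one_le_pow₀ hck
    nlinarith [mul_nonneg hDpos.le K'0, mul_nonneg (sub_nonneg.2 c3) (mul_nonneg hDpos.le K'0)]
  have hT : ‖Tm A W a z w‖ ^ 2 ≤ C ^ 2 * ‖Tm A W' a z w‖ ^ 2 := by
    have := pow_le_pow_left₀ (norm_nonneg _) e3 2
    rw [mul_pow] at this
    exact this
  have hkap0 := kap_nonneg hA hWn z w
  rw [hkk]
  calc Y / D * ‖Tm A W a z w‖ ^ 2
      ≤ (2 * C ^ 2 * kap A W' z w) * (C ^ 2 * ‖Tm A W' a z w‖ ^ 2) :=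
        mul_le_mul hk' hT (by positivity) (by positivity)
    _ = c2 X h * (kap A W' z w * ‖Tm A W' a z w‖ ^ 2) := by
        rw [c2]; ring

end P365Z0.H945
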